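import Mathlib

/-! Row 57 (second neighbourhood): base toolkit.  Arcs are a `Finset (V × V)`. -/

set_option autoImplicit false
open Finset

namespace Crest.Agent.R57

variable {V : Type*} [Fintype V] [DecidableEq V]

/-- oriented: no loop, no pair of opposite arcs -/
def Ori (A : Finset (V × V)) : Prop := ∀ u v, (u, v) ∈ A → (v, u) ∉ A

/-- open out-neighbourhood of a set -/
def Out (A : Finset (V × V)) (S : Finset V) : Finset V :=
  univ.filter fun y => ∃ x ∈ S, (x, y) ∈ A

/-- closed out-neighbourhood of a set -/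
def G (A : Finset (V × V)) (S : Finset V) : Finset V := S ∪ Out A S

/-- weight of a set -/
def wt (w : V → ℝ) (S : Finset V) : ℝ := ∑ x ∈ S, w x

/-- `w(N1 S) - w(N2 S)` -/
def phi (w : V → ℝ) (A : Finset (V × V)) (S : Finset V) : ℝ :=
  2 * wt w (G A S) - wt w S - wt w (G A (G A S))

/-- weighted counterexample -/
def Cex (w : V → ℝ) (A : Finset (V × V)) : Prop := Ori A ∧ ∀ v, 0 < phi w A {v}

/-- total deficiency -/
def tot (w : V → ℝ) (A : Finset (V × V)) : ℝ := ∑ v, phi w A {v}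

/-- extremal counterexample: maximal total deficiency, then fewest arcs -/
structure Ext (w : V → ℝ) (A : Finset (V × V)) : Prop where
  cex : Cex w A
  max : ∀ A', Cex w A' → tot w A' ≤ tot w A
  min : ∀ A', Cex w A' → tot w A' = tot w A → A.card ≤ A'.card

variable {w : V → ℝ} {A : Finset (V × V)}

@[simp] theorem mem_Out {S : Finset V} {y : V} : y ∈ Out A S ↔ ∃ x ∈ S, (x, y) ∈ A := by
  simp [Out]

theorem mem_G {S : Finset V} {y : V} : y ∈ G A S ↔ y ∈ S ∨ ∃ x ∈ S, (x, y) ∈ A := by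
  simp [G]

theorem subset_G (S : Finset V) : S ⊆ G A S := subset_union_left

theorem G_mono {S T : Finset V} (h : S ⊆ T) : G A S ⊆ G A T := by
  intro y hy
  rcases mem_G.1 hy with h1 | ⟨x, hx, hxy⟩
  · exact mem_G.2 (Or.inl (h h1))
  · exact mem_G.2 (Or.inr ⟨x, h hx, hxy⟩)

theorem G_mono_arc {A' : Finset (V × V)} (hA : A' ⊆ A) {S T : Finset V} (h : S ⊆ T) :
    G A' S ⊆ G A T := by
  intro y hy
  rcases mem_G.1 hy with h1 | ⟨x, hx, hxy⟩
  · exact mem_G.2 (Or.inl (h h1))
  · exact mem_G.2 (Or.inr ⟨x, h hx, hA hxy⟩)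

theorem wt_eq (S : Finset V) : wt w S = ∑ y, if y ∈ S then w y else 0 := by
  simp [wt]

theorem wt_mono (hw : ∀ x, 0 ≤ w x) {S T : Finset V} (h : S ⊆ T) : wt w S ≤ wt w T :=
  sum_le_sum_of_subset_of_nonneg h fun x _ _ => hw x

theorem exists_ext (h : Cex w A) : ∃ A', Ext w A' := by
  classical
  obtain ⟨A₁, h₁, hmax⟩ := exists_max_image (univ.filter fun A' : Finset (V × V) => Cex w A')
    (tot w) ⟨A, by simpa using h⟩
  obtain ⟨A₂, h₂, hmin⟩ := exists_min_image
    (univ.filter fun A' : Finset (V × V) => Cex w A' ∧ tot w A' = tot w A₁) Finset.card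
    ⟨A₁, by simpa using h₁⟩
  simp only [mem_filter, mem_univ, true_and] at h₁ h₂ hmax hmin
  exact ⟨A₂, h₂.1, fun A' hA' => h₂.2 ▸ hmax A' hA',
    fun A' hA' he => hmin A' ⟨hA', he.trans h₂.2⟩⟩

/-- no modification that is rowwise at least as good and has fewer arcs -/
theorem Ext.not_better (h : Ext w A) {A' : Finset (V × V)} (ho : Ori A')
    (hle : ∀ v, phi w A {v} ≤ phi w A' {v}) :
    (∀ v, phi w A' {v} = phi w A {v}) ∧ A.card ≤ A'.card := by
  have hc : Cex w A' := ⟨ho, fun v => (h.cex.2 v).trans_le (hle v)⟩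
  have h1 : tot w A ≤ tot w A' := sum_le_sum fun v _ => hle v
  have h2 : tot w A' = tot w A := le_antisymm (h.max A' hc) h1
  refine ⟨fun v => ?_, h.min A' hc h2⟩
  have := (sum_eq_sum_iff_of_le (s := univ) (fun v _ => hle v)).1 h2.symm v (mem_univ v)
  exact this.symm

/-- the function minimised in the deletion argument -/
def fm (w : V → ℝ) (A : Finset (V × V)) (S₀ T : Finset V) : ℝ :=
  wt w (G A T \ (S₀ ∪ T)) - wt w T

theorem ptw {p1 p2 s0 t gT gTU gg gg' : Prop} [Decidable p1] [Decidable p2] [Decidable s0]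
    [Decidable t] [Decidable gT] [Decidable gTU] [Decidable gg] [Decidable gg'] {c : ℝ}
    (hc : 0 ≤ c) (a3 : gg' → gg) (a4 : gg' → p1 ∨ s0 ∨ gT) (a6 : p1 ∨ p2 → gg)
    (a7 : p1 ∨ p2 ∧ (s0 ∨ t) → gg') (a8 : gTU → gT ∨ (p2 ∧ ¬ s0 ∧ ¬ t) ∨ (gg ∧ ¬ p1))
    (a9 : t → gT) (a10 : ¬ (p1 ∧ p2)) :
    2 * (if p1 ∨ p2 then c else 0) - (if p1 then c else 0) - (if gg then c else 0) +
      (((if gTU ∧ ¬ (s0 ∨ t ∨ (p2 ∧ ¬ s0 ∧ ¬ t)) then c else 0) -
        (if t ∨ (p2 ∧ ¬ s0 ∧ ¬ t) then c else 0)) -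
      ((if gT ∧ ¬ (s0 ∨ t) then c else 0) - (if t then c else 0))) ≤
    2 * (if p1 ∨ p2 ∧ (s0 ∨ t) then c else 0) - (if p1 then c else 0) -
      (if gg' then c else 0) := by
  by_cases p1 <;> by_cases p2 <;> by_cases s0 <;> by_cases t <;> by_cases gT <;>
    by_cases gTU <;> by_cases gg <;> by_cases gg' <;> simp_all <;> linarith

/-- **F1, unique minimiser form**: for `S₀ ⊆ S`, `fm S₀` has the unique minimiser `Out S \ S₀`
among the subsets of `Out S \ S₀`. -/
theorem Ext.F1u (h : Ext w A) (hw : ∀ x, 0 ≤ w x) {S₀ S : Finset V} (hS : S₀ ⊆ S) {T : Finset V}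
    (hT : T ⊆ Out A S \ S₀) (hne : T ≠ Out A S \ S₀) :
    fm w A S₀ (Out A S \ S₀) < fm w A S₀ T := by
  classical
  by_contra hcon
  push Not at hcon
  -- a minimiser different from the whole set
  obtain ⟨T, hT, hne, hmin⟩ : ∃ T, T ⊆ Out A S \ S₀ ∧ T ≠ Out A S \ S₀ ∧
      ∀ T', T' ⊆ Out A S \ S₀ → fm w A S₀ T ≤ fm w A S₀ T' := by
    obtain ⟨T₁, h₁, hm⟩ := exists_min_image (Out A S \ S₀).powerset (fm w A S₀) ⟨T, by simpa using hT⟩
    simp only [mem_powerset] at h₁ hm
    by_cases he : T₁ = Out A S \ S₀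
    · exact ⟨T, hT, hne, fun T' hT' => hcon.trans (he ▸ hm T' hT')⟩
    · exact ⟨T₁, h₁, he, hm⟩
  set A' : Finset (V × V) := A.filter fun e => ¬ (e.1 ∈ S ∧ e.2 ∉ S₀ ∧ e.2 ∉ T) with hA'
  have hsub : A' ⊆ A := filter_subset _ _
  have hmem : ∀ x y, (x, y) ∈ A' ↔ (x, y) ∈ A ∧ ¬ (x ∈ S ∧ y ∉ S₀ ∧ y ∉ T) := by
    intro x y; simp only [hA', mem_filter]
  have ho : Ori A' := fun u v huv hvu => h.cex.1 u v (hsub huv) (hsub hvu)
  have hle : ∀ v, phi w A {v} ≤ phi w A' {v} := by
    intro v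
    by_cases hv : v ∈ S
    · set U : Finset V := univ.filter fun y => (v, y) ∈ A ∧ y ∉ S₀ ∧ y ∉ T with hU
      have hUm : ∀ y, y ∈ U ↔ (v, y) ∈ A ∧ y ∉ S₀ ∧ y ∉ T := by intro y; simp [hU]
      have h1 := hmin (T ∪ U) (by
        intro y hy
        rcases mem_union.1 hy with hy | hy
        · exact hT hy
        · rw [hUm] at hy
          exact mem_sdiff.2 ⟨mem_Out.2 ⟨v, hv, hy.1⟩, hy.2.1⟩)
      have h2 : phi w A {v} + (fm w A S₀ (T ∪ U) - fm w A S₀ T) ≤ phi w A' {v} := by
        simp only [phi, fm, wt_eq (w := w), mul_sum, ← sum_sub_distrib, ← sum_add_distrib]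
        refine sum_le_sum fun y _ => ?_
        have hwy := hw y
        have a1 : y ∈ G A {v} ↔ y = v ∨ (v, y) ∈ A := by simp [mem_G]
        have a2 : y ∈ G A' {v} ↔ y = v ∨ (v, y) ∈ A' := by simp [mem_G]
        have a3 : y ∈ G A' (G A' {v}) → y ∈ G A (G A {v}) :=
          fun hy => G_mono_arc hsub (G_mono_arc hsub Subset.rfl) hy
        have a4 : y ∈ G A' (G A' {v}) → y = v ∨ y ∈ S₀ ∨ y ∈ G A T := by
          intro hy
          have key : ∀ z, z ∈ G A' {v} → z = v ∨ z ∈ S₀ ∨ z ∈ T := by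
            intro z hz
            rcases mem_G.1 hz with hz | ⟨x, hx, hxz⟩
            · exact Or.inl (mem_singleton.1 hz)
            · rw [mem_singleton.1 hx, hmem] at hxz
              by_contra hc; push Not at hc
              exact hxz.2 ⟨hv, hc.2.1, hc.2.2⟩
          rcases mem_G.1 hy with hy | ⟨z, hz, hzy⟩
          · rcases key y hy with h' | h' | h'
            · exact Or.inl h'
            · exact Or.inr (Or.inl h')
            · exact Or.inr (Or.inr (subset_G _ h'))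
          · by_cases hzT : z ∈ T
            · exact Or.inr (Or.inr (mem_G.2 (Or.inr ⟨z, hzT, hsub hzy⟩)))
            · have hzS : z ∈ S := by
                rcases key z hz with h' | h' | h'
                · exact h' ▸ hv
                · exact hS h'
                · exact absurd h' hzT
              rw [hmem] at hzy
              by_cases hy0 : y ∈ S₀
              · exact Or.inr (Or.inl hy0)
              · refine Or.inr (Or.inr (subset_G _ ?_))
                by_contra hc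
                exact hzy.2 ⟨hzS, hy0, hc⟩
        have a5 : (v, y) ∈ A' ↔ (v, y) ∈ A ∧ (y ∈ S₀ ∨ y ∈ T) := by
          rw [hmem]; tauto
        have a6 : y = v ∨ (v, y) ∈ A → y ∈ G A (G A {v}) := fun hy => subset_G _ (a1.2 hy)
        have a7 : y = v ∨ (v, y) ∈ A' → y ∈ G A' (G A' {v}) := fun hy => subset_G _ (a2.2 hy)
        have a8 : y ∈ G A (T ∪ U) → y ∈ G A T ∨ y ∈ U ∨ (y ∈ G A (G A {v}) ∧ y ≠ v) := by
          intro hy
          rcases mem_G.1 hy with hy | ⟨z, hz, hzy⟩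
          · rcases mem_union.1 hy with hy | hy
            · exact Or.inl (subset_G _ hy)
            · exact Or.inr (Or.inl hy)
          · rcases mem_union.1 hz with hz | hz
            · exact Or.inl (mem_G.2 (Or.inr ⟨z, hz, hzy⟩))
            · have hvz := ((hUm z).1 hz).1
              refine Or.inr (Or.inr ⟨mem_G.2 (Or.inr ⟨z, mem_G.2 (Or.inr
                ⟨v, mem_singleton_self v, hvz⟩), hzy⟩), ?_⟩)
              rintro rfl
              exact h.cex.1 _ _ hvz hzy
        have a9 : y ∈ T → y ∈ G A T := fun hy => subset_G _ hy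
        have a10 : ¬ (y = v ∧ (v, y) ∈ A) := by
          rintro ⟨rfl, hy⟩; exact h.cex.1 _ _ hy hy
        simp only [a1, a2, a5, mem_singleton, mem_sdiff, mem_union, hUm] at a7 a8 ⊢
        exact ptw hwy a3 a4 a6 a7 a8 a9 a10
      linarith
    · simp only [phi]
      have e1 : G A' {v} = G A {v} := by
        ext y; simp [mem_G, hmem, hv]
      have e2 : wt w (G A' (G A' {v})) ≤ wt w (G A (G A {v})) :=
        wt_mono hw (G_mono_arc hsub (G_mono_arc hsub Subset.rfl))
      rw [e1] at e2 ⊢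
      linarith
  have hcard := (h.not_better ho hle).2
  obtain ⟨y, hy, hyT⟩ := exists_of_ssubset (ssubset_of_subset_of_ne hT hne)
  obtain ⟨hy1, hy2⟩ := mem_sdiff.1 hy
  obtain ⟨x, hx, hxy⟩ := mem_Out.1 hy1
  have : A' ⊂ A := ⟨hsub, fun hc => ((hmem x y).1 (hc hxy)).2 ⟨hx, hy2, hyT⟩⟩
  exact absurd (card_lt_card this) (not_lt.2 hcard)

theorem phi_eq (S : Finset V) :
    phi w A S = wt w (G A S \ S) - wt w (G A (G A S) \ G A S) := by
  simp only [phi, wt, sum_sdiff_eq_sub (subset_G S), sum_sdiff_eq_sub (subset_G (G A S))]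
  ring

theorem fm_top (S : Finset V) : fm w A S (Out A S \ S) = - phi w A S := by
  have e1 : Out A S \ S = G A S \ S := by
    ext y; simp only [G, mem_sdiff, mem_union]; tauto
  have e2 : G A (G A S \ S) \ (S ∪ (G A S \ S)) = G A (G A S) \ G A S := by
    rw [union_sdiff_of_subset (subset_G S)]
    ext y
    simp only [mem_sdiff]
    refine and_congr_left fun hy => ⟨fun h1 => G_mono sdiff_subset h1, fun h1 => ?_⟩
    rcases mem_G.1 h1 with h2 | ⟨x, hx, hxy⟩
    · exact absurd h2 hy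
    · refine mem_G.2 (Or.inr ⟨x, mem_sdiff.2 ⟨hx, fun hxS => hy ?_⟩, hxy⟩)
      exact mem_G.2 (Or.inr ⟨x, hxS, hxy⟩)
  rw [fm, e1, e2, phi_eq]; ring

theorem fm_empty (S : Finset V) : fm w A S ∅ = 0 := by
  have : G A (∅ : Finset V) = ∅ := by ext y; simp [mem_G]
  simp [fm, this, wt]

/-- **F1**: strict concavity for every set that is not out-closed -/
theorem Ext.F1 (h : Ext w A) (hw : ∀ x, 0 ≤ w x) {S : Finset V} (hS : G A S ≠ S) :
    0 < phi w A S := by
  have hne : (∅ : Finset V) ≠ Out A S \ S := by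
    intro he
    apply hS
    have : Out A S ⊆ S := sdiff_eq_empty_iff_subset.1 he.symm
    exact union_eq_left.2 this
  have := h.F1u hw (Subset.refl S) (empty_subset _) hne
  rw [fm_top, fm_empty] at this
  linarith

/-- **F1**, weak form for every set -/
theorem Ext.F1le (h : Ext w A) (hw : ∀ x, 0 ≤ w x) (S : Finset V) : 0 ≤ phi w A S := by
  by_cases hS : G A S = S
  · simp only [phi, hS]; linarith
  · exact (h.F1 hw hS).le

/-- weak unique-minimiser form, any `T` -/
theorem Ext.F1ule (h : Ext w A) (hw : ∀ x, 0 ≤ w x) {S₀ S : Finset V} (hS : S₀ ⊆ S)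
    {T : Finset V} (hT : T ⊆ Out A S \ S₀) : fm w A S₀ (Out A S \ S₀) ≤ fm w A S₀ T := by
  by_cases he : T = Out A S \ S₀
  · rw [he]
  · exact (h.F1u hw hS hT he).le

omit [DecidableEq V] in
/-- reduction of the frozen statement to the non-existence of an extremal counterexample -/
theorem main_of [Nonempty V] (D : Digraph V) (hopp : ∀ u v, D.Adj u v → ¬ D.Adj v u)
    (H : ∀ [DecidableEq V] (A : Finset (V × V)), ¬ Ext (fun _ => (1 : ℝ)) A) :
    ∃ v : V, Set.ncard {u | D.Adj v u} ≤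
      Set.ncard {w | w ≠ v ∧ ¬ D.Adj v w ∧ ∃ u, D.Adj v u ∧ D.Adj u w} := by
  classical
  by_contra hcon
  push Not at hcon
  set A : Finset (V × V) := univ.filter fun e => D.Adj e.1 e.2 with hA
  have hm : ∀ x y, (x, y) ∈ A ↔ D.Adj x y := by intro x y; simp [hA]
  have hc : Cex (fun _ => (1 : ℝ)) A := by
    refine ⟨fun u v huv hvu => hopp u v ((hm _ _).1 huv) ((hm _ _).1 hvu), fun v => ?_⟩
    have hv : ¬ D.Adj v v := fun hv => hopp v v hv hv
    have e1 : {u | D.Adj v u} = ((G A {v} \ {v} : Finset V) : Set V) := by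
      ext u
      simp only [Set.mem_setOf_eq, coe_sdiff, coe_singleton, Set.mem_diff, mem_coe, mem_G,
        mem_singleton, exists_eq_left, hm, Set.mem_singleton_iff]
      constructor
      · intro hu; exact ⟨Or.inr hu, fun he => hv (he ▸ hu)⟩
      · rintro ⟨h1 | h1, h2⟩
        · exact absurd h1 h2
        · exact h1
    have e2 : {w | w ≠ v ∧ ¬ D.Adj v w ∧ ∃ u, D.Adj v u ∧ D.Adj u w}
        = ((G A (G A {v}) \ G A {v} : Finset V) : Set V) := by
      ext u
      simp only [Set.mem_setOf_eq, coe_sdiff, Set.mem_diff, mem_coe, mem_G,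
        mem_singleton, exists_eq_left, hm, not_or]
      constructor
      · rintro ⟨h1, h2, z, hz1, hz2⟩
        exact ⟨Or.inr ⟨z, Or.inr hz1, hz2⟩, h1, h2⟩
      · rintro ⟨h1 | ⟨z, hz | hz, hz2⟩, h2, h3⟩
        · rcases h1 with h1 | h1
          · exact absurd h1 h2
          · exact absurd h1 h3
        · exact absurd (hz ▸ hz2) h3
        · exact ⟨h2, h3, z, hz, hz2⟩
    have := hcon v
    rw [e1, e2, Set.ncard_coe_finset, Set.ncard_coe_finset] at this
    rw [phi_eq]
    simp only [wt, sum_const, nsmul_eq_mul, mul_one, sub_pos]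
    exact_mod_cast this
  obtain ⟨A', hA'⟩ := exists_ext hc
  exact H A' hA'

end Crest.Agent.R57
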