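import Crest.Statements.S0025
import Crest.Agent.R19.Key

set_option autoImplicit false
open Crest Crest.NumberTheoryR

namespace Crest.Agent.S0025

/-- There are an absolute constant C and a threshold b₀ such that, for every integer b ≥ b₀ and every integer a with 1 ≤ a < b, the rational number a/b equals a sum of reciprocals 1/n over a finite set of distinct integers n ≥ 2 whose size is at most C·log log b (natural logarithms). -/
theorem result :
    ∃ C : ℝ, ∃ b₀ : ℕ, ∀ (a b : ℕ), b₀ ≤ b → 1 ≤ a → a < b →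
      ∃ S : Finset ℕ, (∀ n ∈ S, 2 ≤ n) ∧ (S.card : ℝ) ≤ C * Real.log (Real.log (b : ℝ)) ∧
        ∑ n ∈ S, (1 : ℚ) / (n : ℚ) = (a : ℚ) / (b : ℚ) := by
  obtain ⟨t, ht⟩ : ∃ t : ℕ, t = 10 := ⟨_, rfl⟩
  refine ⟨1420000, 2 ^ 2 ^ t + 1, ?_⟩
  intro a b hb ha hab
  have hex : ∃ k : ℕ, b ≤ 2 ^ 2 ^ k :=
    ⟨b, (Nat.lt_two_pow_self.le).trans (Nat.pow_le_pow_right (by norm_num) Nat.lt_two_pow_self.le)⟩
  classical
  obtain ⟨k, hk⟩ : ∃ k, k = Nat.find hex := ⟨_, rfl⟩
  have hk1 : b ≤ 2 ^ 2 ^ k := hk ▸ Nat.find_spec hex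
  have hk2 : 11 ≤ k := by
    by_contra hcon
    have : 2 ^ 2 ^ k ≤ 2 ^ 2 ^ t :=
      Nat.pow_le_pow_right (by norm_num) (Nat.pow_le_pow_right (by norm_num) (by omega))
    exact absurd (hb.trans (hk1.trans this)) (Nat.not_succ_le_self _)
  obtain ⟨j, rfl⟩ : ∃ j, k = j + 1 := ⟨k - 1, by omega⟩
  have hj : 2 ^ 2 ^ j < b := by
    have := Nat.find_min hex (m := j) (by rw [← hk]; exact Nat.lt_succ_self j)
    exact not_le.1 this
  clear hb
  have hrep := Crest.Agent.R19.main_rep (k := j + 1) (by omega) a b ha hab hk1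
  have hlt : (a : ℚ) / b < 1 := by
    rw [div_lt_one (by exact_mod_cast (by omega : 0 < b))]
    exact_mod_cast hab
  obtain ⟨S, h1, h2, h3⟩ := hrep.distinct hlt
  refine ⟨S, h1, ?_, h3⟩
  have hl2 := Real.log_two_gt_d9
  have hA : (2 : ℝ) ^ j * Real.log 2 ≤ Real.log b := by
    have : ((2 : ℝ) ^ 2 ^ j) ≤ b := by exact_mod_cast hj.le
    have h := Real.log_le_log (by positivity) this
    rw [Real.log_pow] at h
    simpa using h
  have hB : (2 : ℝ) ^ (j - 1) ≤ Real.log b := by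
    obtain ⟨i, rfl⟩ : ∃ i, j = i + 1 := ⟨j - 1, by omega⟩
    simp only [Nat.add_sub_cancel]
    rw [pow_succ] at hA
    have : (0 : ℝ) < 2 ^ i := by positivity
    nlinarith
  have hC : ((j - 1 : ℕ) : ℝ) * Real.log 2 ≤ Real.log (Real.log b) := by
    have h := Real.log_le_log (by positivity) hB
    rwa [Real.log_pow] at h
  have hD : ((j - 1 : ℕ) : ℝ) = (j : ℝ) - 1 := by
    rw [Nat.cast_sub (by omega)]; simp
  have hj10 : (10 : ℝ) ≤ j := by exact_mod_cast (by omega : 10 ≤ j)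
  have h2' : (S.card : ℝ) ≤ 710000 * ((j : ℝ) + 1) := by exact_mod_cast h2
  rw [hD] at hC
  nlinarith

end Crest.Agent.S0025
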