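import Crest.Statements.S0042
import Crest.Agent.R32.Main6

set_option autoImplicit false
open Crest Crest.CombinatoricsR

namespace Crest.Agent.S0042

/-- There are real constants η > 0 and c > 0 and a threshold n₀ such that for every natural number n ≥ n₀ some n points of the closed unit square have the property that every triangle with three distinct vertices among them has area at least c · n ^ (-2 + η). The area of the triangle p q r is half the absolute value of the determinant of q - p and r - p. -/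
theorem result :
    ∃ η : ℝ, 0 < η ∧ ∃ c : ℝ, 0 < c ∧ ∃ n₀ : ℕ, ∀ n : ℕ, n₀ ≤ n →
      ∃ P : Finset (ℝ × ℝ), P.card = n ∧
        (∀ p ∈ P, 0 ≤ p.1 ∧ p.1 ≤ 1 ∧ 0 ≤ p.2 ∧ p.2 ≤ 1) ∧
        ∀ p ∈ P, ∀ q ∈ P, ∀ r ∈ P, p ≠ q → p ≠ r → q ≠ r →
          c * (n : ℝ) ^ (-2 + η) ≤ |(q.1 - p.1) * (r.2 - p.2) - (q.2 - p.2) * (r.1 - p.1)| / 2 := by
  obtain ⟨C, N, s₀, hC, hN, hs, h⟩ := R32.conf_final (D := R32.DI)
    fun p _ h6 κ hκ => R32.exists_form h6 κ hκ
  have hC' : (0 : ℝ) < C := by exact_mod_cast hC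
  refine ⟨(N : ℝ)⁻¹, by positivity, 1 / (512 * C), by positivity, s₀ ^ N, fun n hn => ?_⟩
  have h1 := (Nat.le_nthRoot_iff hN.ne').2 hn
  have h2 := Nat.lt_pow_nthRoot_add_one hN.ne' n
  refine (h _ n h1 (Nat.pow_nthRoot_le (.inl hN.ne')) h2).mono ?_
  generalize Nat.nthRoot N n = s at h1 h2
  have n0 : (0 : ℝ) < n := by exact_mod_cast lt_of_lt_of_le (pow_pos hs N) hn
  have h3 : (n : ℝ) ^ (N : ℝ)⁻¹ ≤ 2 * s := by
    have h4 : n ≤ (2 * s) ^ N := h2.le.trans (Nat.pow_le_pow_left (by omega) _)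
    rw [← Real.pow_rpow_inv_natCast (x := 2 * s) (by positivity) hN.ne']
    gcongr
    exact_mod_cast h4
  rw [Real.rpow_add n0, Real.rpow_neg n0.le, Real.rpow_two]
  calc _ ≤ 1 / (512 * C) * (((n : ℝ) ^ 2)⁻¹ * (2 * s)) := by gcongr
    _ = _ := by field_simp; ring

end Crest.Agent.S0042
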