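import Crest.Statements.S0069
import Crest.Agent.R50.Comb

set_option autoImplicit false
open Crest Crest.CombinatoricsR

namespace Crest.Agent.S0069

open scoped RealInnerProductSpace
open Crest.Agent.R50

/-- The traceless part of `x xᵀ` in orthonormal coordinates. -/
noncomputable def ver (x : E4) : EuclideanSpace ℝ (Fin 9) :=
  !₂[x 0 * x 1 + x 2 * x 3, x 0 * x 1 - x 2 * x 3, x 0 * x 2 + x 1 * x 3, x 0 * x 2 - x 1 * x 3,
    x 0 * x 3 + x 1 * x 2, x 0 * x 3 - x 1 * x 2,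
    (x 0 ^ 2 + x 1 ^ 2 - x 2 ^ 2 - x 3 ^ 2) / 2, (x 0 ^ 2 - x 1 ^ 2 + x 2 ^ 2 - x 3 ^ 2) / 2,
    (x 0 ^ 2 - x 1 ^ 2 - x 2 ^ 2 + x 3 ^ 2) / 2]

theorem ver_neg (x : E4) : ver (-x) = ver x := by
  simp [ver]

theorem ver_dist (x y : E4) (hx : ‖x‖ = 1) (hy : ‖y‖ = 1) :
    dist (ver x) (ver y) ^ 2 = 2 - 2 * ⟪x, y⟫ ^ 2 := by
  have h1 : x 0 ^ 2 + x 1 ^ 2 + x 2 ^ 2 + x 3 ^ 2 = 1 := by
    have := EuclideanSpace.real_norm_sq_eq x
    rw [hx, Fin.sum_univ_four] at this; linarith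
  have h2 : y 0 ^ 2 + y 1 ^ 2 + y 2 ^ 2 + y 3 ^ 2 = 1 := by
    have := EuclideanSpace.real_norm_sq_eq y
    rw [hy, Fin.sum_univ_four] at this; linarith
  have h3 : ⟪x, y⟫ = x 0 * y 0 + x 1 * y 1 + x 2 * y 2 + x 3 * y 3 := by
    simp [PiLp.inner_apply, Fin.sum_univ_four]; ring
  rw [EuclideanSpace.dist_sq_eq, h3]
  simp only [ver, Fin.sum_univ_succ, Fin.sum_univ_zero, Real.dist_eq, sq_abs, Matrix.cons_val_zero,
    Matrix.cons_val_succ, PiLp.toLp_apply]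
  have e : ∀ a b : ℝ, a = 1 → b = 1 → a ^ 2 + b ^ 2 - (a - b) ^ 2 / 4 = 2 := by
    rintro a b rfl rfl; norm_num
  have := e _ _ h1 h2
  linear_combination this

/-- Some bounded subset of nine-dimensional Euclidean space with at least two points cannot be split into ten parts of strictly smaller diameter: however its points are assigned to ten classes, some class has diameter at least that of the whole set. -/
theorem result :
    ∃ S : Set (EuclideanSpace ℝ (Fin 9)), Bornology.IsBounded S ∧ S.Nontrivial ∧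
      ∀ c : EuclideanSpace ℝ (Fin 9) → Fin 10, ∃ i : Fin 10,
        Metric.diam S ≤ Metric.diam (S ∩ c ⁻¹' {i}) := by
  let S : Set (EuclideanSpace ℝ (Fin 9)) := ver '' {x | ‖x‖ = 1}
  have hd : ∀ p ∈ S, ∀ q ∈ S, dist p q ≤ √2 := by
    rintro _ ⟨x, hx, rfl⟩ _ ⟨y, hy, rfl⟩
    apply Real.le_sqrt_of_sq_le
    rw [ver_dist x y hx hy]
    nlinarith [sq_nonneg ⟪x, y⟫]
  have hb : Bornology.IsBounded S := Metric.isBounded_iff.2 ⟨√2, fun p hp q hq => hd p hp q hq⟩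
  let a : E4 := EuclideanSpace.single 0 1
  let b : E4 := EuclideanSpace.single 1 1
  have ha : ‖a‖ = 1 := by simp [a]
  have hb' : ‖b‖ = 1 := by simp [b]
  have hab : dist (ver a) (ver b) ^ 2 = 2 := by
    rw [ver_dist a b ha hb']
    simp [a, b, EuclideanSpace.inner_single_left]
  refine ⟨S, hb, ⟨ver a, ⟨a, ha, rfl⟩, ver b, ⟨b, hb', rfl⟩, ?_⟩, ?_⟩
  · intro h
    rw [h] at hab
    simp at hab
  intro c
  by_contra hcon
  push Not at hcon
  have hS : Metric.diam S ≤ √2 := Metric.diam_le_of_forall_dist_le (Real.sqrt_nonneg _) hd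
  obtain ⟨i, -, hi⟩ := Finset.exists_max_image Finset.univ
    (fun i : Fin 10 => Metric.diam (S ∩ c ⁻¹' {i})) ⟨0, Finset.mem_univ _⟩
  set D := Metric.diam (S ∩ c ⁻¹' {i}) with hD
  have hD0 : 0 ≤ D := Metric.diam_nonneg
  have hD2 : D ^ 2 < 2 := by
    have h1 : D < √2 := (hcon i).trans_le hS
    have h2 := Real.sq_sqrt (show (0 : ℝ) ≤ 2 by norm_num)
    nlinarith
  refine Col.false ⟨fun x => c (ver x), (2 - D ^ 2) / 4, by linarith, fun x => by rw [ver_neg], ?_⟩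
  intro x y hx hy h
  have h1 : dist (ver x) (ver y) ≤ D := by
    refine le_trans ?_ (hi (c (ver x)) (Finset.mem_univ _))
    exact Metric.dist_le_diam_of_mem (hb.subset Set.inter_subset_left) ⟨⟨x, hx, rfl⟩, rfl⟩
      ⟨⟨y, hy, rfl⟩, h.symm⟩
  have h2 := ver_dist x y hx hy
  have h3 : dist (ver x) (ver y) ^ 2 ≤ D ^ 2 := by gcongr
  linarith

end Crest.Agent.S0069
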