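import Crest.Statements.S0084
import Crest.Agent.R62.Main

set_option autoImplicit false
open Classical
open scoped Matrix
open Crest Crest.CombinatoricsR

namespace Crest.Agent.S0084

/-- For every d ≥ 3 there are a threshold n₀ and a polynomial-time map F on bit strings such that for every even n ≥ n₀, reading the output of F on the unary string of length n as an n × n adjacency bit matrix gives a simple d-regular graph on n vertices all of whose adjacency eigenvalues on the space orthogonal to the constant vector lie strictly between -2√(d-1) and 2√(d-1): for every non-zero real vector x with zero coordinate sum, the absolute value of xᵀ A x is less than 2√(d-1) · xᵀ x. -/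
theorem result (d : ℕ) (hd : 3 ≤ d) :
    ∃ n₀ : ℕ, ∃ F : List Bool → List Bool, Crest.Complexity.PolyTime F ∧
      ∀ n : ℕ, n₀ ≤ n → Even n →
        (Crest.CombinatoricsR.GraphCode.adjGraph n
            (F (Crest.CombinatoricsR.GraphCode.unary n))).IsRegularOfDegree d ∧
        ∀ x : Fin n → ℝ, ∑ i, x i = 0 → x ≠ 0 →
          |x ⬝ᵥ ((Crest.CombinatoricsR.GraphCode.adjGraph n
              (F (Crest.CombinatoricsR.GraphCode.unary n))).adjMatrix ℝ *ᵥ x)| <
            2 * Real.sqrt ((d : ℝ) - 1) * (x ⬝ᵥ x) := by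
  obtain ⟨q, rfl⟩ : ∃ q, d = q + 1 := ⟨d - 1, by omega⟩
  have hq2 : 2 ≤ q := by omega
  have hq : 0 < q := by omega
  obtain ⟨n0, run, PTrun, hrun⟩ := R62.main_run q hq2 hq
  obtain ⟨outL, PTout, hout⟩ := R62.exists_outL q hq
  obtain ⟨compL, PTcomp, hcomp⟩ := R62.exists_compL q hq
  have P1 : PTime.PT (fun w : List Bool => compL w.length (run w.length)) :=
    PTcomp.comp (g := fun w : List Bool => ((⟨w.length⟩ : PTime.U), run w.length))
      ((PTime.PT.ulength PTime.PT.id).pair PTrun)
  have P2 : PTime.PT (fun w : List Bool => outL w.length (compL w.length (run w.length))) :=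
    PTout.comp (g := fun w : List Bool => ((⟨w.length⟩ : PTime.U), compL w.length (run w.length)))
      ((PTime.PT.ulength PTime.PT.id).pair P1)
  refine ⟨n0, fun w => outL w.length (compL w.length (run w.length)), P2.polyTime, ?_⟩
  intro n hn0 hn
  have hl : (Crest.CombinatoricsR.GraphCode.unary n).length = n := by
    simp [Crest.CombinatoricsR.GraphCode.unary]
  obtain ⟨w1, w2, w3, w4, w5, x, hx, hspec⟩ := hrun n hn hn0
  obtain ⟨c1, c2, c3, c4, c5⟩ := hcomp n hn (run n) w1 w2 w3 w4 w5
  have hG : ∀ u v : Fin n, (Crest.CombinatoricsR.GraphCode.adjGraph n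
      (outL (Crest.CombinatoricsR.GraphCode.unary n).length
        (compL (Crest.CombinatoricsR.GraphCode.unary n).length
          (run (Crest.CombinatoricsR.GraphCode.unary n).length)))).Adj u v ↔
      (R62.heFin q n hq hn).adj (R62.decP (q * n) (compL n (run n))) u v := by
    rw [hl]; exact hout n hn _ c1 c2 c3
  refine ⟨R62.HE.regular _ c3 c5 _ hG, fun z hz hz0 => ?_⟩
  rw [R62.HE.quad _ c3 c5 _ hG z]
  have h1 := hspec _ c2 c4 z hz
  have h2 : z ⬝ᵥ z = ∑ u, z u ^ 2 := by simp [dotProduct, sq]
  have h3 : 0 < ∑ u, z u ^ 2 := by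
    obtain ⟨u, hu⟩ := Function.ne_iff.1 hz0
    exact Finset.sum_pos' (fun i _ => sq_nonneg _) ⟨u, Finset.mem_univ _, pow_pos (abs_pos.2 hu) 2 |>.trans_eq (sq_abs _)⟩
  have h4 : (((q + 1 : ℕ) : ℝ) - 1) = q := by push_cast; ring
  rw [h2, h4]
  exact lt_of_le_of_lt h1 (mul_lt_mul_of_pos_right hx h3)

end Crest.Agent.S0084
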