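import Crest.Statements.S0085
import Crest.Agent.R63.Final

set_option autoImplicit false
open Crest Crest.CombinatoricsR

namespace Crest.Agent.S0085

/-- For every real C > 0 there are a natural number n, a Boolean function f on the n-dimensional Boolean cube and a natural number d such that: f is non-constant; every Fourier–Walsh coefficient of f (values and inputs read as signs +1 for true and -1 for false, averaged over the uniform cube) indexed by a set of more than d coordinates vanishes, so f has degree at most d; and the sum of the n singleton Fourier–Walsh coefficients of f exceeds C times the square root of d. -/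
theorem result (C : ℝ) (hC : 0 < C) :
    ∃ n : ℕ, ∃ f : (Fin n → Bool) → Bool, ∃ d : ℕ,
      (∃ x y, f x ≠ f y) ∧
      (∀ S : Finset (Fin n), d < S.card →
        ∑ x : Fin n → Bool, ((if f x then (1 : ℝ) else -1) * ∏ i ∈ S, (if x i then (1 : ℝ) else -1)) = 0) ∧
      C * Real.sqrt d <
        ∑ i : Fin n, (∑ x : Fin n → Bool, ((if f x then (1 : ℝ) else -1) * (if x i then (1 : ℝ) else -1))) / 2 ^ n := by
  obtain ⟨n, d, f, L, hf, hL⟩ := Crest.Agent.R63.main C hC
  refine ⟨n, f, d, ?_, fun S hS => Crest.Agent.R63.sum_mul_chi_eq_zero hf.deg S hS, ?_⟩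
  · by_contra hc
    push Not at hc
    have h := hf.bal
    have e : (fun x => Crest.Agent.R63.sg (f x)) =
        fun _ => Crest.Agent.R63.sg (f (fun _ => true)) := by
      ext x; rw [hc x (fun _ => true)]
    rw [e, Crest.Agent.R63.E_const] at h
    have := Crest.Agent.R63.abs_sg (f (fun _ => true))
    rw [h] at this
    simp at this
  · refine hL.trans_le (le_of_eq ?_)
    rw [← hf.lin]
    unfold Crest.Agent.R63.Ssum
    simp_rw [Finset.mul_sum]
    rw [Crest.Agent.R63.E_sum]
    refine Finset.sum_congr rfl fun i _ => ?_
    simp [Crest.Agent.R63.E, Crest.Agent.R63.sg]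

end Crest.Agent.S0085
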