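import Crest.Statements.S0222
import Crest.Agent.R155.Trunc
import Crest.Agent.R155.L2

set_option autoImplicit false
open Crest Crest.ProbabilityR

namespace Crest.Agent.S0222

/-- Shuffle a deck of `n = 2 * 2 ^ d` cards `1600 * (d + 1)` times, that is `1600 * log₂ n` times. The total variation distance between the law of the resulting arrangement of the whole deck and the uniform law on all arrangements tends to `0` as `d → ∞`. -/
theorem result :
    Filter.Tendsto (fun d : ℕ => Crest.ProbabilityR.Shuffle.tvFromUniform (2 ^ d) (1600 * (d + 1)))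
      Filter.atTop (nhds 0) := by
  rw [Metric.tendsto_atTop]
  intro ε hε
  obtain ⟨n₀, hn₀⟩ := R155.l1_bound (ε := ε / 2) (by positivity)
  have h1 := R155.err_tendsto
  rw [Metric.tendsto_atTop] at h1
  obtain ⟨N, hN⟩ := h1 (ε / 640) (by positivity)
  refine ⟨max (max N 3) n₀, fun d hd => ?_⟩
  have hd1 : N ≤ d := le_trans (le_trans (le_max_left _ _) (le_max_left _ _)) hd
  have hd2 : 3 ≤ d := le_trans (le_trans (le_max_right _ _) (le_max_left _ _)) hd
  have hd3 : n₀ ≤ d := le_trans (le_max_right _ _) hd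
  have hcard : n₀ ≤ Fintype.card (R155.Pos (2 ^ d)) := by
    have : d < 2 ^ d := Nat.lt_two_pow_self
    simp only [Fintype.card_fin]
    omega
  have e1 : 1600 * (d + 1) = (100 * d + 99 + 1) + 10 * (150 * (d + 1)) := by ring
  let u : Fin (2 ^ d) := ⟨0, by positivity⟩
  have h2 := hn₀ (R155.Pos (2 ^ d)) hcard (R155.blk _) (R155.blk_disjoint _)
    (R155.law' _ (150 * (d + 1))) (R155.law'_nonneg _ _) (R155.law'_marg _ _)
    (R155.law _ (100 * d + 99 + 1)) (R155.law_nonneg _ _) (R155.sum_law _ _) (R155.ev u) (R155.od u)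
    (R155.ev_ne_od u u) (R155.law_swap _ u)
  have h3 := R155.trunc (R155.law'_nonneg (2 ^ d) (150 * (d + 1))) (R155.law'_le _ _)
    (R155.sum_law _ _) (R155.law_nonneg (2 ^ d) (100 * d + 99 + 1)) (R155.sum_law _ _) 10
  have h4 := R155.law'_mass hd2 (150 * (d + 1))
  have h5 := hN d hd1
  rw [Real.dist_eq, sub_zero, abs_lt] at h5
  rw [Real.dist_eq, sub_zero, R155.tv_eq, e1, R155.law_rounds,
    abs_of_nonneg (mul_nonneg (by norm_num) (Finset.sum_nonneg fun _ _ => abs_nonneg _))]
  push_cast at h3
  linarith [h5.2]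

end Crest.Agent.S0222
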