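import Crest.Statements.S0274
import Crest.Agent.R177.Two
import Crest.Agent.R177.TopB
import Crest.Agent.R177.TF

set_option autoImplicit false
open Crest.Topology
open Crest Crest.AlgebraR

namespace Crest.Agent.S0274

/-- There is a finitely presented group in which only the identity has finite order, having a finite classifying complex of dimension at most two (a finite Hausdorff CW complex with no cells above dimension two, with a contractible cover and with fundamental group isomorphic to the group), together with two elements a and b of its group algebra over the field with two elements such that a * b = 1 but b * a ≠ 1. -/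
theorem result :
    ∃ (G : Type) (_ : Group G), Group.IsFinitelyPresented G ∧ (∀ g : G, IsOfFinOrder g → g = 1) ∧
      HasFiniteClassifyingComplex G 2 ∧
      ∃ a b : MonoidAlgebra (ZMod 2) G, a * b = 1 ∧ b * a ≠ 1 := by
  obtain ⟨Hf, V, P, _, _, _, _, S, σ, τ, C, h1, h2, h3, h4, h5⟩ := R177.two_core
  obtain ⟨S', T, _, _, ⟨Q⟩⟩ := R177.exists_triPres S h1 h2 _ τ h3 (R177.cs_of_isoP S h1 _ τ h3 C h4)
  have : Finite (R177.rels S σ τ) := by
    refine Set.Finite.to_subtype (((Set.finite_range fun c : P =>
      FreeGroup.of (Sum.inl c : P ⊕ V) * FreeGroup.of (Sum.inl (σ c))).union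
      (Set.finite_range fun h : Hf => FreeGroup.of (Sum.inr (S.vert h) : P ⊕ V) *
        FreeGroup.of (Sum.inl (S.col h)) * (FreeGroup.of (Sum.inr (S.vert (τ h))))⁻¹)).subset ?_)
    rintro r (⟨c, rfl⟩ | ⟨h, rfl⟩)
    · exact Or.inl ⟨c, rfl⟩
    · exact Or.inr ⟨h, rfl⟩
  exact ⟨R177.Grp S σ τ, inferInstance, inferInstance, Q.torsionFree,
    Q.hasFiniteClassifyingComplex, h5⟩

end Crest.Agent.S0274
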