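import Crest.Statements.S0275
import Crest.Agent.R177.Odd

set_option autoImplicit false
open Crest Crest.AlgebraR

namespace Crest.Agent.S0275

theorem alg {R : Type} [Ring R] (f : R) (hc : ∀ x, f * x = x * f) (hf : f * f = f) (h0 : f ≠ 0)
    (X Y : Fin 2 → R) (h : ∀ i j, f * (X i * Y j) = if i = j then f else 0) :
    ∃ a b : R, a * b = 1 ∧ b * a ≠ 1 := by
  have key : ∀ x y, (f * x + (1 - f)) * (f * y + (1 - f)) = f * (x * y) + (1 - f) := fun x y => by
    have e1 : f * x * (f * y) = f * (x * y) := by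
      rw [mul_assoc, ← mul_assoc x, ← hc, mul_assoc, ← mul_assoc f f, hf]
    have e2 : f * x * (1 - f) = 0 := by rw [hc x, mul_assoc, mul_sub, mul_one, hf, sub_self, mul_zero]
    have e3 : (1 - f) * (f * y) = 0 := by rw [← mul_assoc, sub_mul, one_mul, hf, sub_self, zero_mul]
    have e4 : (1 - f) * (1 - f) = 1 - f := by rw [mul_sub, mul_one, sub_mul, one_mul, hf]; simp
    rw [add_mul, mul_add, mul_add, e1, e2, e3, e4, add_zero, zero_add]
  refine ⟨f * X 0 + (1 - f), f * Y 0 + (1 - f), by rw [key, h]; simp, fun e => h0 ?_⟩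
  rw [key] at e
  have e1 : f * (Y 0 * X 0) = f := add_right_cancel (e.trans (add_sub_cancel f 1).symm)
  have e2 : f * Y 1 = 0 := by
    rw [← e1, mul_assoc, mul_assoc, ← mul_assoc f, hc, mul_assoc, h]; simp
  have e3 := h 1 1
  rw [← mul_assoc, hc, mul_assoc, e2, mul_zero] at e3
  simpa using e3.symm

theorem core (p : ℕ) (hp : p.Prime) (h3 : 3 ≤ p) :
    ∃ (K : Type) (_ : Field K) (G : Type) (_ : Group G), Nat.card K = p ^ 4 ∧
      Group.FG G ∧ (∃ g : G, g ≠ 1 ∧ IsOfFinOrder g) ∧
      ∃ a b : MonoidAlgebra K G, a * b = 1 ∧ b * a ≠ 1 := by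
  have := Fact.mk hp
  obtain ⟨G, _, z, X, Y, hG, h1, h2, hz, h4⟩ := R177.odd_core p hp h3
  refine ⟨GaloisField p 4, inferInstance, G, _, GaloisField.card p 4 (by norm_num), hG,
    ⟨z, h1, isOfFinOrder_iff_pow_eq_one.2 ⟨2, two_pos, by rw [sq, h2]⟩⟩, ?_⟩
  set K := GaloisField p 4
  have t2 : (2 : K) ≠ 0 := fun e => by
    have := Nat.le_of_dvd two_pos ((CharP.cast_eq_zero_iff K p 2).1 (by exact_mod_cast e))
    omega
  set F := MonoidAlgebra.mapRingHom G (Int.castRingHom K)
  set w := MonoidAlgebra.of K G z with hw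
  have ww : w * w = 1 := by rw [hw, ← map_mul, h2, map_one]
  have wc : ∀ x, w * x = x * w := fun x => by
    induction x using MonoidAlgebra.induction_linear with
    | zero => simp
    | add a b ha hb => rw [mul_add, add_mul, ha, hb]
    | single g r => simp [hw, MonoidAlgebra.single_mul_single, hz]
  have e0 : (1 - w) * (1 + w) = 0 := by rw [sub_mul, mul_add, mul_add, ww]; simp [add_comm]
  refine alg ((2 : K)⁻¹ • (1 - w)) (fun x => ?_) ?_ (fun e => ?_) (fun i => F (X i))
    (fun i => F (Y i)) fun i j => ?_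
  · rw [smul_mul_assoc, mul_smul_comm, sub_mul, mul_sub, wc, one_mul, mul_one]
  · have : (1 - w) * (1 - w) = (2 : K) • (1 - w) := by
      rw [two_smul, sub_mul, mul_sub, mul_sub, ww]; simp only [one_mul, mul_one]; abel
    rw [smul_mul_smul_comm, this, smul_smul, mul_assoc, inv_mul_cancel₀ t2, mul_one]
  · rw [smul_eq_zero, inv_eq_zero, or_iff_right t2, sub_eq_zero] at e
    exact h1 (MonoidAlgebra.of_injective (R := K) (e.symm.trans (map_one _).symm))
  · obtain ⟨A, B, h⟩ := h4 i j
    have e1 : F (MonoidAlgebra.of ℤ G z) = w := by simp [F, hw]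
    have e2 : p • F A = 0 := by rw [← Nat.cast_smul_eq_nsmul K, CharP.cast_eq_zero, zero_smul]
    rw [← map_mul, h, map_add, map_add, map_nsmul, e2, map_mul, map_add, map_one, e1, add_zero,
      mul_add, ← mul_assoc, smul_mul_assoc _ _ (1 + w), e0, smul_zero, zero_mul, add_zero]
    split_ifs <;> simp

theorem fac (m : ℕ) (hm : 2 ≤ m) : Nat.Prime (Nat.minFac (m.factorial ^ 2 + 1)) ∧
    3 ≤ Nat.minFac (m.factorial ^ 2 + 1) := by
  have h0 := pow_pos m.factorial_pos 2
  have hp := Nat.minFac_prime (n := m.factorial ^ 2 + 1) (by omega)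
  refine ⟨hp, by_contra fun h => hp.one_lt.ne' (Nat.dvd_one.1 ((Nat.dvd_add_right ?_).1
    (Nat.minFac_dvd _)))⟩
  exact Dvd.dvd.pow (Nat.dvd_factorial hp.pos (by omega)) two_ne_zero

/-- Let m be the central binomial coefficient (1200 choose 600) and p the least divisor greater than one of (m!)^2 + 1. Then p is an odd prime, and there are a field with p^4 elements, a finitely generated group containing a non-identity element of finite order, and two elements a and b of the group algebra of that group over that field with a * b = 1 but b * a ≠ 1. -/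
theorem result :
    Nat.Prime (Nat.minFac ((Nat.choose 1200 600).factorial ^ 2 + 1)) ∧
    Odd (Nat.minFac ((Nat.choose 1200 600).factorial ^ 2 + 1)) ∧
    ∃ (K : Type) (_ : Field K) (G : Type) (_ : Group G),
      Nat.card K = Nat.minFac ((Nat.choose 1200 600).factorial ^ 2 + 1) ^ 4 ∧
      Group.FG G ∧ (∃ g : G, g ≠ 1 ∧ IsOfFinOrder g) ∧
      ∃ a b : MonoidAlgebra K G, a * b = 1 ∧ b * a ≠ 1 := by
  have h : 2 ≤ Nat.choose 1200 600 :=
    Nat.two_le_centralBinom 600 (by norm_num)
  generalize Nat.choose 1200 600 = m at h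
  obtain ⟨h1, h2⟩ := fac m h
  exact ⟨h1, h1.odd_of_ne_two (by omega), core _ h1 h2⟩

end Crest.Agent.S0275
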