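import Crest.Statements.S0299
import Crest.Agent.R196.Geo
import Crest.Agent.R196.Amal
import Crest.Agent.R196.Graph
import Crest.Agent.R196.Iso
import Crest.Agent.R177.VK
import Crest.Agent.R177.Hyp
import Crest.Agent.R177.TF
import Crest.Agent.R177.TopB

set_option autoImplicit false
universe u
open Crest Crest.AlgebraR

namespace Crest.Agent.S0299

/-- There is a group that is word-hyperbolic (four-point condition for the word metric of some finite generating set), is the fundamental group of a finite aspherical CW complex of dimension at most two (a finite classifying space), and yet admits no geometric action — an action by isometries that is proper and cocompact — on any non-empty proper complete CAT(0) metric space. -/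
theorem result :
    ∃ (G : Type) (_ : Group G),
      Crest.GroupTheory.IsHyperbolicGroup G ∧ Crest.Topology.HasFiniteClassifyingComplex G 2 ∧
      ∀ (X : Type u) [MetricSpace X] [CompleteSpace X] [ProperSpace X] [Nonempty X] [MulAction G X],
        Crest.Geometry.IsCAT0Space X → ¬ Crest.Geometry.IsGeometricAction G X := by
  classical
  obtain ⟨m, _, δ, hδ, hgeo⟩ := R196.geo.{u}
  obtain ⟨B, C, hiso⟩ := R196.Sys.isoP (3 * m + 2)
  obtain ⟨r, hr, ω, ⟨hnc, hst⟩, hmany⟩ :=
    (((R196.Model.nc (M := R196.Mod m) B).and (R196.stat_whp m hδ)).and (R196.many_whp m)).exists 1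
  obtain ⟨Hf, V, Cp, _, _, Y, hσ, hK, hB, hc, he, hh, p, hp⟩ := R196.exists_sys m r ω B hnc
  have hI := hiso Y hK hB
  have hcard : Fintype.card (R196.PP (3 * m + 1) r) < Fintype.card
      {f : Fin 6 → R196.PP (3 * m + 1) r // R196.Gen f ∧ R196.Model.Pres ω (R196.thO 0 0 f)} := by
    rw [Fintype.card_subtype]
    convert hmany
  have hne : Nonempty Hf := by
    obtain ⟨i⟩ := Fintype.card_pos_iff.mp (lt_of_le_of_lt (Nat.zero_le _) hcard)
    exact ⟨p i 0⟩
  have hP : Nonempty (R196.PP (3 * m + 1) r) := ⟨(⟨0, pow_pos hr _⟩, true)⟩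
  have hcs := R177.cs_of_isoP Y.S Y.σσ _ Y.τ Y.isMatch C hI
  obtain ⟨S', T, _, _, ⟨Q⟩⟩ := R177.exists_triPres Y.S Y.σσ Y.σne _ Y.τ Y.isMatch hcs
  refine ⟨R177.Grp Y.S Y.σ Y.τ, inferInstance,
    R177.hyperbolic_of_chainIso _ _ (R177.linv_linv Y.σσ) (R177.gx_linv Y.S Y.σ Y.τ)
      (R177.gx_closure Y.S Y.σ Y.τ) _ (R177.chainIso_of_isoP Y.S Y.σσ _ Y.τ Y.isMatch C hI),
    Q.hasFiniteClassifyingComplex, ?_⟩
  intro X _ _ _ _ _ hX hG
  obtain ⟨q, hq⟩ := hgeo Y.σ Y.x Y.σσ (fun c => R177.gx_linv Y.S Y.σ Y.τ (Sum.inl c)) _ _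
    (hst.mono hc he hh) X hX hG
  have hfin := hG.2.1 {q} isCompact_singleton
  have h1 : ∀ c, Y.x c = 1 := by
    intro c
    refine Q.torsionFree _ ?_
    by_contra hn
    refine hfin.not_infinite (Set.infinite_of_injective_forall_mem
      (injective_pow_iff_not_isOfFinOrder.mpr hn) fun n => ⟨q, ⟨q, rfl, ?_⟩, rfl⟩)
    induction n with
    | zero => simp
    | succ n ih =>
      simp only at ih ⊢
      rw [pow_succ (Y.x c), mul_smul, hq, ih]
  exact absurd (R196.card_le_of_trivial Y.S Y.σ Y.τ Y.ττ hcs p hp h1) (not_le.mpr hcard)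

end Crest.Agent.S0299
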