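import Crest.Statements.S0323
import Crest.Agent.R210.Step

set_option autoImplicit false
open Crest.GeometryTopology.EditDistance
open Crest Crest.GeometryTopology Crest.GeometryTopology.EditDistance

namespace Crest.Agent.R210

open Finset

theorem distortion_ge {r B b S t Q k q : ℕ} {A : Type} [AddCommGroup A] [Fintype A] {root : A}
    {str : A → List (List ℕ)} (hG : Good r B b S t Q k q A root str) (hq : 2 ≤ q) (hr : 0 < r)
    (hB : 0 < B) (hr4 : 4 * k * b ≤ r) (f : List Bool → lp (fun _ : ℕ => ℝ) 1) (s D : ℝ) (hs : 0 < s)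
    (h : ∀ x y : List Bool, x.length = (B * r) ^ k * (3 + (2 * k + 1) * Q * 2) →
      y.length = (B * r) ^ k * (3 + (2 * k + 1) * Q * 2) → x ≠ y →
      s * (editDist x y : ℝ) ≤ ‖f x - f y‖ ∧ ‖f x - f y‖ ≤ D * s * (editDist x y : ℝ)) :
    1 ≤ 8 * ((3 + (2 * k + 1) * Q * 2 : ℕ) : ℝ) * (4 * S / B + 1 / t ^ k) * D := by
  set L := 3 + (2 * k + 1) * Q * 2 with hL
  set n := (B * r) ^ k with hn
  have hn0 : 0 < n := by positivity
  have hcw : ∀ e, ∀ a ∈ str e, (cw Q a).length = L := fun e a ha => by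
    rw [length_cw, (hG.val e a ha).1]
  set enc : A → List Bool := fun e => (str e).flatMap (cw Q) with henc
  have hlen : ∀ e, (enc e).length = n * L := fun e => by
    rw [henc]; dsimp only; rw [length_flatMap_const _ _ L (hcw e), hG.len]
  have hfar : ∀ e, ∀ u, 0 < u → u < q → n ≤ 2 * editDist (enc e) (enc (e + u • root)) := by
    intro e u hu0 hu
    obtain ⟨w, h1, h2, h3⟩ := editDist_lower (x := str e) (y := str (e + u • root)) (hG.val e)
      fun a ha => (hG.val _ a ha).1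
    have h4 := hG.lcs e 0 u (fun h => by
      have := Nat.ModEq.eq_of_lt_of_lt h (by omega) hu
      omega) w (by simpa using h1) h2
    rw [hG.len] at h3
    have h5 : 2 * w.length * r ≤ n * r := by
      calc 2 * w.length * r = 2 * (w.length * r) := by ring
        _ ≤ 2 * (2 * k * b * n) := by gcongr
        _ = n * (4 * k * b) := by ring
        _ ≤ n * r := by gcongr
    have h6 := Nat.le_of_mul_le_mul_right h5 hr
    simp only [henc]
    omega
  have hne : ∀ e, ∀ u, 0 < u → u < q → enc e ≠ enc (e + u • root) := by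
    intro e u hu0 hu he
    have := hfar e u hu0 hu
    rw [← he, editDist, SimpleGraph.dist_self] at this
    omega
  have hD : 1 ≤ D := by
    obtain ⟨h1, h2⟩ := h _ _ (hlen 0) (hlen _) (hne 0 1 one_pos (by omega))
    have h3 : (0 : ℝ) < editDist (enc 0) (enc (0 + 1 • root)) := by
      have := hfar 0 1 one_pos (by omega)
      exact_mod_cast (by omega : 0 < editDist (enc 0) (enc (0 + 1 • root)))
    have h4 := h1.trans h2
    by_contra hlt
    push Not at hlt
    nlinarith [mul_pos hs h3]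
  have hP := hG.poin (fun e e' => ‖f (enc e) - f (enc e')‖) (cnd_l1.comp fun e => f (enc e))
    (2 * L * D * s) (by positivity) fun e e' c hc => by
      by_cases he : enc e = enc e'
      · simp only [he, sub_self, norm_zero]; positivity
      · refine (h _ _ (hlen e) (hlen e') he).2.trans ?_
        have h1 := ((by simpa using hc 0 : Near c (str e) (str e')).flatMap (cw Q) (hcw e)
          (hcw e')).editDist_le
        have h2 : (editDist (enc e) (enc e') : ℝ) ≤ 2 * (c * L) := by exact_mod_cast h1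
        calc D * s * (editDist (enc e) (enc e') : ℝ) ≤ D * s * (2 * (c * L)) := by gcongr
          _ = _ := by ring
  have hc : (0 : ℝ) < Fintype.card A := by exact_mod_cast Fintype.card_pos
  have hq' : (2 : ℝ) ≤ q := by exact_mod_cast hq
  have hlow : Fintype.card A * (s * n / 4) ≤
      Tav (fun e e' => ‖f (enc e) - f (enc e')‖) root q := by
    rw [Tav, le_div_iff₀ (by linarith)]
    obtain ⟨q', rfl⟩ : ∃ q', q = q' + 1 := ⟨q - 1, by omega⟩
    rw [sum_range_succ']
    have h1 : ∀ u ∈ range q', Fintype.card A * (s * n / 2) ≤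
        Dsum (fun e e' => ‖f (enc e) - f (enc e')‖) ((u + 1) • root) := by
      intro u hu
      have hu' := mem_range.1 hu
      calc Fintype.card A * (s * n / 2) = ∑ _e : A, s * n / 2 := by simp
        _ ≤ _ := sum_le_sum fun e _ => ?_
      refine le_trans ?_ (h _ _ (hlen e) (hlen _) (hne e (u + 1) (by omega) (by omega))).1
      have h2 : (n : ℝ) ≤ 2 * editDist (enc e) (enc (e + (u + 1) • root)) := by
        exact_mod_cast hfar e (u + 1) (by omega) (by omega)
      nlinarith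
    have h2 := sum_le_sum h1
    have h3 : 0 ≤ Dsum (fun e e' => ‖f (enc e) - f (enc e')‖) (0 • root) :=
      sum_nonneg fun _ _ => norm_nonneg _
    rw [sum_const, card_range, nsmul_eq_mul] at h2
    push_cast at hq' ⊢
    have h4 : 0 ≤ Fintype.card A * (s * n / 4) := by positivity
    nlinarith
  have h7 := le_of_mul_le_mul_left (hlow.trans hP) hc
  have hn' : (0 : ℝ) < s * n := by positivity
  have e : ((B * r : ℕ) : ℝ) ^ k = n := by rw [hn]; push_cast; ring
  rw [e] at h7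
  refine le_of_mul_le_mul_left ?_ hn'
  linarith

theorem nth_prime_le {l : ℕ} (hl : 6 ≤ l) {i : ℕ} (hi : i ≤ 2 ^ (5 * l)) :
    Nat.nth Nat.Prime i ≤ 2 ^ (10 * l) := by
  set n := 2 ^ (10 * l) with hn
  have h1 := Chebyshev.two_pow_le_mul_lcmUpto n
  have h2 : Nat.lcmUpto n ≤ n ^ (Nat.primesLE n).card := by
    rw [Nat.lcmUpto_eq_prod_pow_log]
    exact prod_le_pow_card _ _ _ fun p _ => Nat.pow_log_le_self p (by positivity)
  have h3 : 2 ^ (5 * l) < (Nat.primesLE n).card := by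
    by_contra hc
    push Not at hc
    have h4 : 2 ^ n ≤ 2 ^ (10 * l + 1 + 10 * l * 2 ^ (5 * l)) := by
      calc 2 ^ n ≤ (n + 1) * n ^ (Nat.primesLE n).card := h1.trans (by gcongr)
        _ ≤ (2 * n) * n ^ (2 ^ (5 * l)) := by
          have : 1 ≤ n := Nat.one_le_two_pow
          gcongr
          omega
        _ = _ := by rw [hn, ← pow_mul]; ring
    have h5 := (Nat.pow_le_pow_iff_right (a := 2) (by norm_num)).1 h4
    have h6 : n = 2 ^ (5 * l) * 2 ^ (5 * l) := by rw [hn, ← pow_add]; congr 1; ring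
    have h7 : l < 2 ^ l := Nat.lt_two_pow_self
    have h8 : 2 ^ (5 * l) = 2 ^ l * 2 ^ (4 * l) := by rw [← pow_add]; congr 1; ring
    have h9 : 2 ^ 24 ≤ 2 ^ (4 * l) := Nat.pow_le_pow_right (by norm_num) (by omega)
    have h10 : 32 * l ≤ 2 ^ (5 * l) := by rw [h8]; nlinarith
    set X := 2 ^ (5 * l)
    nlinarith
  rw [Nat.primesLE_card_eq_primeCounting] at h3
  have h4 : i < Nat.count Nat.Prime (n + 1) := lt_of_le_of_lt hi h3
  have := Nat.nth_lt_of_lt_count h4
  omega

theorem level_bound {l : ℕ} (hl : 6 ≤ l) : ∃ n : ℕ, n ≤ 2 ^ (13 * l * 4 ^ l) ∧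
    ∀ (f : List Bool → lp (fun _ : ℕ => ℝ) 1) (s D : ℝ), 0 < s →
      (∀ x y : List Bool, x.length = n → y.length = n → x ≠ y →
        s * (editDist x y : ℝ) ≤ ‖f x - f y‖ ∧ ‖f x - f y‖ ≤ D * s * (editDist x y : ℝ)) →
      (2 : ℝ) ^ (l * 2 ^ (l - 1)) ≤ D := by
  set k := 2 ^ l with hk
  have hk64 : 64 ≤ k := Nat.pow_le_pow_right (n := 2) (by norm_num) hl
  have hlk : l < k := Nat.lt_two_pow_self
  set r := 48 * l * k ^ 2 with hr
  have hr0 : 0 < r := by positivity
  have hr4 : r ≤ 2 ^ (4 * l) := by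
    have : 2 ^ (4 * l) = k * k * k ^ 2 := by rw [hk]; ring
    rw [this, hr]; gcongr; nlinarith
  set b := 12 * l * k with hb
  set Q := 2 ^ (10 * l) with hQ
  obtain ⟨A, g, ft, root, str, hG⟩ := exists_good (Nat.nth Nat.Prime) (r := r) (B := 2 ^ b) (b := b)
    (S := 2 * Q ^ k) (t := k) (Q := Q) (N := 2 ^ (5 * l) + 1) hr0
    ⟨24 * l * k ^ 2, by rw [hr]; ring⟩ rfl
    (fun i => (Nat.prime_nth_prime i).two_le)
    (fun i j hij => (Nat.coprime_primes (Nat.prime_nth_prime i) (Nat.prime_nth_prime j)).2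
      fun h => hij (Nat.nth_injective Nat.infinite_setOfPred_prime h))
    (hr4.trans (Nat.pow_le_pow_right (by norm_num) (by omega)))
    (fun i hi => nth_prime_le hl (by omega)) (by omega) le_rfl k (k * r) le_rfl (by
      have : k * r ≤ 2 ^ (5 * l) := by
        calc k * r ≤ 2 ^ l * 2 ^ (4 * l) := by gcongr
          _ = _ := by ring
      omega)
  have hL : 3 + (2 * k + 1) * Q * 2 ≤ 2 ^ (11 * l + 3) := by
    have e : 2 ^ (11 * l + 3) = 8 * k * Q := by rw [hk, hQ]; ring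
    have : 1 ≤ Q := Nat.one_le_two_pow
    rw [e]; nlinarith
  refine ⟨(2 ^ b * r) ^ k * (3 + (2 * k + 1) * Q * 2), ?_, fun f s D hs h => ?_⟩
  · calc (2 ^ b * r) ^ k * (3 + (2 * k + 1) * Q * 2)
        ≤ (2 ^ b * 2 ^ (4 * l)) ^ k * 2 ^ (11 * l + 3) := by gcongr
      _ = 2 ^ ((b + 4 * l) * k + (11 * l + 3)) := by rw [← pow_add, ← pow_mul, ← pow_add]
      _ ≤ _ := by
        refine Nat.pow_le_pow_right (by norm_num) ?_
        have e : 4 ^ l = k * k := by rw [hk, ← mul_pow]; rfl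
        have h1 : 64 * (l * k) ≤ l * k * k := by nlinarith
        have h2 : l * 64 ≤ l * k := by gcongr
        rw [e, hb]; nlinarith
  · have hD := distortion_ge hG (Nat.prime_nth_prime _).two_le hr0 (by positivity)
      (by rw [hb, hr]; exact le_of_eq (by ring)) f s D hs h
    have hL' : ((3 + (2 * k + 1) * Q * 2 : ℕ) : ℝ) ≤ 2 ^ (11 * l + 3) := by exact_mod_cast hL
    have hγ : (4 * ((2 * Q ^ k : ℕ) : ℝ) / ((2 ^ b : ℕ) : ℝ) + 1 / (k : ℝ) ^ k) ≤ 2 / 2 ^ (l * k) := by
      have e1 : (k : ℝ) ^ k = 2 ^ (l * k) := by rw [pow_mul]; congr 1; rw [hk]; push_cast; ring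
      have e2 : 4 * ((2 * Q ^ k : ℕ) : ℝ) / ((2 ^ b : ℕ) : ℝ) = 8 / 2 ^ (l * k) * (1 / 2 ^ (l * k)) := by
        rw [hQ, hb]; push_cast; field_simp; ring
      have h3 : (8 : ℝ) / 2 ^ (l * k) ≤ 1 := by
        rw [div_le_one (by positivity)]
        calc (8 : ℝ) = 2 ^ 3 := by norm_num
          _ ≤ _ := pow_le_pow_right₀ (by norm_num) (by nlinarith)
      have h4 : (0 : ℝ) ≤ 1 / 2 ^ (l * k) := by positivity
      rw [e1, e2]
      calc _ ≤ 1 * (1 / 2 ^ (l * k)) + 1 / (2 : ℝ) ^ (l * k) := by gcongr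
        _ = _ := by ring
    have hD0 : 0 ≤ D := by
      by_contra hlt
      push Not at hlt
      have : (0 : ℝ) ≤ 8 * ((3 + (2 * k + 1) * Q * 2 : ℕ) : ℝ) *
        (4 * ((2 * Q ^ k : ℕ) : ℝ) / ((2 ^ b : ℕ) : ℝ) + 1 / (k : ℝ) ^ k) := by positivity
      nlinarith
    have h5 : 1 ≤ 8 * (2 : ℝ) ^ (11 * l + 3) * (2 / 2 ^ (l * k)) * D := hD.trans (by gcongr)
    have e3 : l * k = l * 2 ^ (l - 1) + l * 2 ^ (l - 1) := by
      obtain ⟨l', rfl⟩ : ∃ l', l = l' + 1 := ⟨l - 1, by omega⟩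
      rw [hk]; simp; ring
    have h6 : 8 * (2 : ℝ) ^ (11 * l + 3) * 2 ≤ 2 ^ (l * 2 ^ (l - 1)) := by
      calc 8 * (2 : ℝ) ^ (11 * l + 3) * 2 = 2 ^ (11 * l + 7) := by ring
        _ ≤ _ := pow_le_pow_right₀ (by norm_num) (by nlinarith)
    rw [e3, pow_add _ (l * 2 ^ (l - 1))] at h5
    set Y : ℝ := 2 ^ (l * 2 ^ (l - 1))
    have hY : 0 < Y := by positivity
    have h7 : 8 * (2 : ℝ) ^ (11 * l + 3) * (2 / (Y * Y)) * D ≤ D / Y := by
      calc _ = 8 * (2 : ℝ) ^ (11 * l + 3) * 2 * (D / (Y * Y)) := by ring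
        _ ≤ Y * (D / (Y * Y)) := by gcongr
        _ = D / Y := by field_simp
    have := h5.trans h7
    rwa [le_div_iff₀ hY, one_mul] at this

theorem exists_level (g : ℕ → ℕ) (d : ℕ) (h : g 6 ≤ d) :
    ∀ M, d < g (6 + M) → ∃ l, 6 ≤ l ∧ g l ≤ d ∧ d < g (l + 1) := by
  intro M
  induction M with
  | zero => intro h'; simp at h'; omega
  | succ M ih =>
    intro h'
    by_cases hc : d < g (6 + M)
    · exact ih hc
    · exact ⟨6 + M, by omega, by omega, h'⟩

end Crest.Agent.R210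

namespace Crest.Agent.S0323

open Crest.Agent.R210

/-- There are constants `c > 0` and `d₀` such that for every `d ≥ d₀` some length `n ≤ d` has the following property: any map `f` from binary words into real `ℓ¹` that, after a common rescaling `s > 0`, satisfies `s · ed(x,y) ≤ ‖f x - f y‖ ≤ D · s · ed(x,y)` for all distinct binary words `x`, `y` of length exactly `n`, has `D ≥ exp (c √(log d · log log d))`. Here `ed` is unit-cost edit distance (insertions, deletions, substitutions, intermediate words of any length). -/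
theorem result :
    ∃ c : ℝ, 0 < c ∧ ∃ d₀ : ℕ, ∀ d : ℕ, d₀ ≤ d → ∃ n : ℕ, n ≤ d ∧
      ∀ (f : List Bool → lp (fun _ : ℕ => ℝ) 1) (s D : ℝ), 0 < s →
        (∀ x y : List Bool, x.length = n → y.length = n → x ≠ y →
          s * (editDist x y : ℝ) ≤ ‖f x - f y‖ ∧ ‖f x - f y‖ ≤ D * s * (editDist x y : ℝ)) →
        Real.exp (c * Real.sqrt (Real.log d * Real.log (Real.log d))) ≤ D := by
  obtain ⟨g, hg⟩ : ∃ g : ℕ → ℕ, ∀ l, g l = 2 ^ (13 * l * 4 ^ l) := ⟨_, fun _ => rfl⟩
  refine ⟨1 / 64, by norm_num, g 6, fun d hd => ?_⟩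
  obtain ⟨l, hl, h1, h2⟩ := exists_level g d hd d (by
    rw [hg]
    have h1 : 1 ≤ 4 ^ (6 + d) := Nat.one_le_pow _ _ (by norm_num)
    have h2 : 13 * (6 + d) * 4 ^ (6 + d) < 2 ^ (13 * (6 + d) * 4 ^ (6 + d)) := Nat.lt_two_pow_self
    nlinarith)
  rw [hg] at h1 h2
  obtain ⟨n, hn, hf⟩ := level_bound hl
  refine ⟨n, hn.trans h1, fun f s D hs h => le_trans ?_ (hf f s D hs h)⟩
  obtain ⟨l, rfl⟩ : ∃ l', l = l' + 1 := ⟨l - 1, by omega⟩
  set k : ℝ := 2 ^ l with hk
  set m : ℝ := (l : ℝ) + 1 with hm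
  have hm6 : 6 ≤ m := by rw [hm]; exact_mod_cast hl
  have hk0 : 0 < k := by positivity
  have hmk : m ≤ 2 * k := by
    have : l + 1 < 2 ^ (l + 1) := Nat.lt_two_pow_self
    have : ((l + 1 : ℕ) : ℝ) ≤ ((2 ^ (l + 1) : ℕ) : ℝ) := by exact_mod_cast this.le
    push_cast at this
    rw [hm, hk]; linarith [pow_succ (2 : ℝ) l]
  have hlog2 : Real.log 2 ≤ 1 := by linarith [Real.log_two_lt_d9]
  have hlog2' : 1 / 2 ≤ Real.log 2 := by linarith [Real.log_two_gt_d9]
  have hd2 : 2 ≤ d := by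
    refine le_trans ?_ h1
    exact Nat.le_self_pow (by positivity) 2
  have hd1 : (1 : ℝ) < d := by exact_mod_cast hd2
  have hlog0 : 0 < Real.log d := Real.log_pos hd1
  have a1 : Real.log d ≤ 256 * m * k ^ 2 := by
    have : (d : ℝ) ≤ 2 ^ (13 * (l + 1 + 1) * 4 ^ (l + 1 + 1)) := by exact_mod_cast h2.le
    refine (Real.log_le_log (by linarith) this).trans ?_
    rw [Real.log_pow]
    have e : ((13 * (l + 1 + 1) * 4 ^ (l + 1 + 1) : ℕ) : ℝ) = 208 * (m + 1) * k ^ 2 := by
      rw [hm, hk, ← pow_mul, mul_comm l 2, pow_mul]; push_cast; ring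
    rw [e]
    calc 208 * (m + 1) * k ^ 2 * Real.log 2 ≤ 208 * (m + 1) * k ^ 2 * 1 := by gcongr
      _ = (208 * (m + 1)) * k ^ 2 := by ring
      _ ≤ (256 * m) * k ^ 2 := by gcongr ?_ * _; linarith
  have a2 : Real.log (Real.log d) ≤ 4 * m := by
    have : 256 * m * k ^ 2 ≤ 2 ^ (4 * (l + 1)) := by
      have h64 : (32 : ℝ) ≤ k := by
        rw [hk]
        calc (32 : ℝ) = 2 ^ 5 := by norm_num
          _ ≤ _ := pow_le_pow_right₀ (by norm_num) (by omega)
      have e : (2 : ℝ) ^ (4 * (l + 1)) = 16 * k * k * k ^ 2 := by rw [hk]; ring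
      rw [e]
      gcongr ?_ * _
      nlinarith
    refine (Real.log_le_log hlog0 (a1.trans this)).trans ?_
    rw [Real.log_pow]
    push_cast
    rw [← hm]
    nlinarith
  have a3 : Real.sqrt (Real.log d * Real.log (Real.log d)) ≤ 32 * m * k := by
    rw [Real.sqrt_le_left (by positivity)]
    calc Real.log d * Real.log (Real.log d) ≤ Real.log d * (4 * m) := by gcongr
      _ ≤ 256 * m * k ^ 2 * (4 * m) := by gcongr
      _ = _ := by ring
  rw [← Real.exp_log (show (0 : ℝ) < 2 ^ ((l + 1) * 2 ^ (l + 1 - 1)) by positivity), Real.exp_le_exp,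
    Real.log_pow]
  simp only [Nat.add_sub_cancel]
  push_cast
  rw [← hm, ← hk]
  have : 0 < m * k := by positivity
  nlinarith

end Crest.Agent.S0323
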