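import Crest.Statements.S0334
import Crest.Agent.R215.Main

set_option autoImplicit false
open MeasureTheory ProbabilityTheory
universe u v
open Crest Crest.GeometryTopology

namespace Crest.Agent.S0334

/-- In a finite-dimensional real inner product space carrying its standard Gaussian probability measure, for every finite family of measurable cells that are pairwise disjoint and cover the space, the sum over the cells of the squared norm of the cell's Gaussian first moment (the integral of the identity map over the cell) is at most `9 / (8 π)`. Empty cells are allowed. -/
theorem result
    (E : Type u) [NormedAddCommGroup E] [InnerProductSpace ℝ E] [FiniteDimensional ℝ E]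
    [MeasurableSpace E] [BorelSpace E]
    (ι : Type v) [Fintype ι] (A : ι → Set E)
    (hA : ∀ i, MeasurableSet (A i))
    (hdisj : Pairwise fun i j => Disjoint (A i) (A j))
    (hcov : ⋃ i, A i = Set.univ) :
    ∑ i, ‖∫ x in A i, x ∂stdGaussian E‖ ^ 2 ≤ 9 / (8 * Real.pi) := by
  let e := (Fintype.equivFin ι).symm
  have h : R215.AEPart (fun i => A (e i)) :=
    { meas := fun i => hA _
      disj := fun i j hij => (hdisj (e.injective.ne hij)).aedisjoint
      cover := by rw [← hcov]; exact e.surjective.iUnion_comp A }
  have h2 := R215.propeller_fin h
  rwa [e.sum_comp (fun i => ‖∫ x in A i, x ∂stdGaussian E‖ ^ 2)] at h2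

end Crest.Agent.S0334
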