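import Crest.Statements.S0341
import Crest.Agent.R220.Geom

set_option autoImplicit false
open scoped ContDiff
open Crest Crest.GeometryTopology

namespace Crest.Agent.S0341

theorem smul_const_smooth {E F : Type*} [NormedAddCommGroup E] [NormedSpace ℝ E]
    [NormedAddCommGroup F] [NormedSpace ℝ F] {f : E → ℝ} (hf : ContDiff ℝ ∞ f) (B : F) :
    ContDiff ℝ ∞ fun x => f x • B := hf.smul contDiff_const

/-- There is a smooth Riemannian metric on the open square (-1,1)^2 of the Euclidean plane, given as a smooth field g of symmetric positive-definite bilinear forms, such that no open neighbourhood U of the origin inside the square carries a smooth map F to Euclidean three-space with the inner product of dF_x v and dF_x w equal to g_x(v, w) for all x in U and all vectors v, w. In words: no neighbourhood of the origin admits a smooth isometric immersion into three-space. -/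
theorem result :
    ∃ g : EuclideanSpace ℝ (Fin 2) →
        (EuclideanSpace ℝ (Fin 2) →L[ℝ] EuclideanSpace ℝ (Fin 2) →L[ℝ] ℝ),
      ContDiffOn ℝ ∞ g {x : EuclideanSpace ℝ (Fin 2) | ∀ i, x i ∈ Set.Ioo (-1 : ℝ) 1} ∧
      (∀ x ∈ {x : EuclideanSpace ℝ (Fin 2) | ∀ i, x i ∈ Set.Ioo (-1 : ℝ) 1}, ∀ v w, g x v w = g x w v) ∧
      (∀ x ∈ {x : EuclideanSpace ℝ (Fin 2) | ∀ i, x i ∈ Set.Ioo (-1 : ℝ) 1}, ∀ v, v ≠ 0 → 0 < g x v v) ∧
      ∀ U : Set (EuclideanSpace ℝ (Fin 2)), IsOpen U → (0 : EuclideanSpace ℝ (Fin 2)) ∈ U →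
        U ⊆ {x : EuclideanSpace ℝ (Fin 2) | ∀ i, x i ∈ Set.Ioo (-1 : ℝ) 1} →
        ¬ ∃ F : EuclideanSpace ℝ (Fin 2) → EuclideanSpace ℝ (Fin 3), ContDiffOn ℝ ∞ F U ∧
          ∀ x ∈ U, ∀ v w, @inner ℝ (EuclideanSpace ℝ (Fin 3)) _ (fderiv ℝ F x v) (fderiv ℝ F x w)
            = g x v w := by
  obtain ⟨σ, sσ, hσ⟩ := R220.no_iso
  let ι : (ℝ × ℝ) ≃L[ℝ] EuclideanSpace ℝ (Fin 2) :=
    (ContinuousLinearEquiv.finTwoArrow ℝ ℝ).symm.trans (EuclideanSpace.equiv (Fin 2) ℝ).symm
  have hι : ∀ a b : ℝ × ℝ, @inner ℝ _ _ (ι a) (ι b) = a.1 * b.1 + a.2 * b.2 := by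
    intro a b
    simp [ι, PiLp.inner_apply, Fin.sum_univ_two, mul_comm]
  let B : EuclideanSpace ℝ (Fin 2) →L[ℝ] EuclideanSpace ℝ (Fin 2) →L[ℝ] ℝ := innerSL ℝ
  have hB : ∀ v w, B v w = @inner ℝ _ _ v w := fun _ _ => rfl
  refine ⟨fun x => Real.exp (2 * σ (ι.symm x)) • B, ?_, ?_, ?_, ?_⟩
  · exact (smul_const_smooth ((contDiff_const.mul (sσ.comp ι.symm.contDiff)).exp) B).contDiffOn
  · intro x _ v w
    simp only [smul_apply, hB]
    rw [real_inner_comm]
  · intro x _ v hv
    simp only [smul_apply, hB, smul_eq_mul]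
    exact mul_pos (Real.exp_pos _) (real_inner_self_pos.2 hv)
  · rintro U hU h0 - ⟨F, hF, hiso⟩
    have hO : IsOpen (ι ⁻¹' U) := hU.preimage ι.continuous
    obtain ⟨ε, ε0, hε⟩ := Metric.isOpen_iff.1 hO 0 (by simpa using h0)
    have hmem : ∀ p : ℝ × ℝ, ‖p‖ ≤ 2 * (ε / 3) → ι p ∈ U := fun p hp =>
      hε (by rw [mem_ball_zero_iff]; linarith)
    have hat : ∀ p : ℝ × ℝ, ‖p‖ ≤ 2 * (ε / 3) → ContDiffAt ℝ ∞ F (ι p) := fun p hp =>
      hF.contDiffAt (hU.mem_nhds (hmem p hp))
    have e3 : 0 < ε / 3 := by positivity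
    refine hσ (fun p => R220.cut (ε / 3) (ε / 3) p • F (ι p)) (ε / 3) e3 ?_ ?_ ?_
    · refine R220.contDiff_cut (R220.cut_smooth _ _)
        (K := Metric.closedBall 0 (2 * (ε / 3))) Metric.isClosed_closedBall (fun p hp => ?_)
        fun p hp => (hat p (by simpa using hp)).comp p ι.contDiff.contDiffAt
      refine R220.cut_zero e3 ?_
      rw [mem_closedBall_zero_iff, not_le] at hp
      linarith
    · refine R220.hasCompactSupport_of_ball (2 * (ε / 3)) fun p hp => ?_
      rw [R220.cut_zero e3 (by linarith), zero_smul]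
    · intro p hp
      have hp' : ‖p‖ ≤ 2 * (ε / 3) := by linarith
      have ev : (fun p => R220.cut (ε / 3) (ε / 3) p • F (ι p)) =ᶠ[nhds p] fun p => F (ι p) := by
        have : ∀ᶠ t in nhds p, ‖t‖ < ε / 3 :=
          continuous_norm.continuousAt.eventually (gt_mem_nhds hp)
        filter_upwards [this] with t ht
        rw [R220.cut_one e3 ht.le, one_smul]
      have hd : ∀ e, R220.D e (fun p => R220.cut (ε / 3) (ε / 3) p • F (ι p)) p =
          fderiv ℝ F (ι p) (ι e) := by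
        intro e
        rw [R220.D_congr ev]
        unfold R220.D
        rw [show (fun p => F (ι p)) = F ∘ ι from rfl,
          fderiv_comp p ((hat p hp').differentiableAt (by simp)) ι.differentiableAt,
          ι.fderiv]
        rfl
      simp only [hd, hiso _ (hmem p hp'), smul_apply, hB, hι,
        ContinuousLinearEquiv.symm_apply_apply]
      simp

end Crest.Agent.S0341
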