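import Crest.Statements.S0346
import Crest.Agent.R224.Main

set_option autoImplicit false
open Crest.Topology
open Crest Crest.GeometryTopology

namespace Crest.Agent.S0346

theorem final {Γ : Type} [Group Γ] (co : ∀ G : R224.Gen Γ, G.Coarse) (S : Finset Γ)
    (hS : Subgroup.closure (S : Set Γ) = ⊤) (f : Γ → ℝ)
    (hf : Summable fun p : Γ × S => (f (p.1 * (p.2 : Γ)) - f p.1) ^ 2) (ε : ℝ) (hε : 0 < ε) :
    ∃ u : Γ → ℝ, (Function.support u).Finite ∧
      ∃ E : ℝ, HasSum (fun p : Γ × S =>
        ((f - u) (p.1 * (p.2 : Γ)) - (f - u) p.1) ^ 2) E ∧ E < ε := by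
  classical
  let G : R224.Gen Γ :=
    { S := insert 1 (S ∪ S.image (·⁻¹))
      one_mem := Finset.mem_insert_self _ _
      inv_mem := by
        intro s hs
        simp only [Finset.mem_insert, Finset.mem_union, Finset.mem_image] at hs ⊢
        rcases hs with rfl | hs | ⟨a, ha, rfl⟩
        · left; simp
        · exact Or.inr (Or.inr ⟨s, hs, rfl⟩)
        · right; left; simpa using ha
      gen := by
        refine top_le_iff.1 (hS ▸ Subgroup.closure_mono ?_)
        intro s hs
        simp only [Finset.coe_insert, Finset.coe_union, Set.mem_insert_iff, Set.mem_union]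
        exact Or.inr (Or.inl hs) }
  have hsub : S ⊆ G.S := fun s hs => Finset.mem_insert_of_mem (Finset.mem_union_left _ hs)
  -- gradients in every direction of `G.S` are square summable
  have hdir : ∀ s ∈ G.S, R224.L2 fun x => f (x * s) - f x := by
    have h1 : ∀ s ∈ S, R224.L2 fun x => f (x * s) - f x := fun s hs =>
      hf.comp_injective (i := fun x : Γ => ((x, ⟨s, hs⟩) : Γ × S))
        (fun a b h => congrArg Prod.fst h)
    intro s hs
    simp only [G, Finset.mem_insert, Finset.mem_union, Finset.mem_image] at hs
    rcases hs with rfl | hs | ⟨a, ha, rfl⟩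
    · simp [R224.L2, summable_zero]
    · exact h1 s hs
    · refine ((h1 a ha).tr_right a⁻¹).1.of_le fun x => ?_
      simp [abs_sub_comm]
  have hsumL2 : ∀ (T : Finset Γ) (v : Γ → Γ → ℝ), (∀ s ∈ T, R224.L2 (v s)) →
      R224.L2 fun x => ∑ s ∈ T, v s x := by
    intro T v
    induction T using Finset.induction_on with
    | empty => intro _; simp [R224.L2, summable_zero]
    | insert a T ha ih =>
      intro h
      have := (h a (Finset.mem_insert_self _ _)).add
        (ih fun s hs => h s (Finset.mem_insert_of_mem hs))
      refine this.of_le fun x => ?_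
      simp [Finset.sum_insert ha]
  have hdom : G.Dom f fun x => ∑ s ∈ G.S, |f (x * s) - f x| := by
    refine ⟨hsumL2 _ _ fun s hs => (hdir s hs).of_le fun x => by simp, fun x s hs => ?_⟩
    exact Finset.single_le_sum (f := fun s => |f (x * s) - f x|) (fun _ _ => abs_nonneg _) hs
  obtain ⟨u, hu, hE⟩ := (co G).approx hdom ε hε
  have hk : ∀ s ∈ G.S, Summable fun x => ((f - u) (x * s) - (f - u) x) ^ 2 := by
    intro s hs
    have h1 : R224.L2 u := R224.L2.of_finite hu
    have h2 := ((hdir s hs).add ((h1.tr_right s).1.const_mul (-1))).add h1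
    refine R224.L2.of_le h2 fun x => le_of_eq ?_
    congr 1
    simp only [Pi.sub_apply, Pi.add_apply]; ring
  have hs1 : Summable fun x => ∑ s ∈ G.S, ((f - u) (x * s) - (f - u) x) ^ 2 :=
    summable_sum hk
  have hs2 : Summable fun x => ∑ s : S, ((f - u) (x * (s : Γ)) - (f - u) x) ^ 2 :=
    summable_sum fun s _ => hk s (hsub s.2)
  have hs3 : Summable fun p : Γ × S => ((f - u) (p.1 * (p.2 : Γ)) - (f - u) p.1) ^ 2 := by
    rw [summable_prod_of_nonneg fun _ => sq_nonneg _]
    refine ⟨fun x => (hasSum_fintype _).summable, ?_⟩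
    simpa only [tsum_fintype] using hs2
  refine ⟨u, hu, _, hs3.hasSum, lt_of_le_of_lt ?_ hE⟩
  rw [hs3.tsum_prod]
  simp only [tsum_fintype]
  refine hs2.tsum_le_tsum (fun x => ?_) hs1
  rw [Finset.sum_coe_sort S fun s => ((f - u) (x * s) - (f - u) x) ^ 2]
  exact Finset.sum_le_sum_of_subset_of_nonneg hsub fun _ _ _ => sq_nonneg _

/-- Let M be a compact connected Hausdorff second-countable space with charts into Euclidean four-space (a closed topological four-manifold) that is aspherical: a contractible space covers it by a surjective covering map. Fix a base point x, a finite set S generating the fundamental group Γ of M at x, and a real function f on Γ whose energy terms, the squares of f (g * s) - f g for g in Γ and s in S, are summable. Then for every ε > 0 the energy of f - u is below ε for some finitely supported u. -/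
theorem result
    (M : Type) [TopologicalSpace M] [T2Space M] [SecondCountableTopology M] [CompactSpace M]
    [ConnectedSpace M] [ChartedSpace (EuclideanSpace ℝ (Fin 4)) M]
    (hM : HasContractibleCover M) (x : M)
    (S : Finset (FundamentalGroup M x))
    (hS : Subgroup.closure (S : Set (FundamentalGroup M x)) = ⊤)
    (f : FundamentalGroup M x → ℝ)
    (hf : Summable fun p : FundamentalGroup M x × S =>
      (f (p.1 * (p.2 : FundamentalGroup M x)) - f p.1) ^ 2)
    (ε : ℝ) (hε : 0 < ε) :
    ∃ u : FundamentalGroup M x → ℝ, (Function.support u).Finite ∧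
      ∃ E : ℝ, HasSum (fun p : FundamentalGroup M x × S =>
        ((f - u) (p.1 * (p.2 : FundamentalGroup M x)) - (f - u) p.1) ^ 2) E ∧ E < ε := by
  obtain ⟨E, _, _, hE⟩ := R224.exists_geo M hM x
  exact final (fun G => hE.coarse G) S hS f hf ε hε

end Crest.Agent.S0346
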