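import Crest.Statements.S0358
import Crest.Agent.R232.Final

set_option autoImplicit false
open MeasureTheory
open scoped ENNReal
universe u
open Crest Crest.GeometryTopology

namespace Crest.Agent.S0358

/-- Fix an exponent `1 < p < ∞` with `p ≠ 2` and a distortion `D > 1`, and put `γ = 2 - p` if `p < 2` and `γ = 1 - 2/p` if `p > 2`. There is a constant `C`, depending only on `p` and `D`, such that for every `n ≥ 2`, every `n` distinct points of any real `L^p` space can be mapped to points of the `d`-dimensional real `ℓ^p` space for some `d ≤ exp (C (log n)^γ)`, so that after a common rescaling by some `s > 0` all pairwise distances are preserved up to the factor `D`. -/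
theorem result
    (p : ℝ≥0∞) [Fact (1 ≤ p)] (hp1 : 1 < p) (hptop : p ≠ ⊤) (hp2 : p ≠ 2)
    (D : ℝ) (hD : 1 < D) :
    ∃ C : ℝ, ∀ (n : ℕ), 2 ≤ n →
      ∀ (α : Type u) [MeasurableSpace α] (μ : Measure α) (x : Fin n → Lp ℝ p μ),
        Function.Injective x →
        ∃ d : ℕ, (d : ℝ) ≤ Real.exp (C * Real.log n ^ (if p.toReal < 2 then 2 - p.toReal else 1 - 2 / p.toReal)) ∧
          ∃ (y : Fin n → PiLp p (fun _ : Fin d => ℝ)) (s : ℝ), 0 < s ∧
            ∀ i j, s * ‖x i - x j‖ ≤ ‖y i - y j‖ ∧ ‖y i - y j‖ ≤ D * s * ‖x i - x j‖ := by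
  have hp0 : p ≠ 0 := by
    intro h; rw [h] at hp1; exact absurd hp1 (by simp)
  have hq1 : 1 < p.toReal := by
    have := (ENNReal.toReal_lt_toReal (by simp : (1 : ℝ≥0∞) ≠ ⊤) hptop).mpr hp1
    simpa using this
  have hq2 : p.toReal ≠ 2 := by
    intro h
    apply hp2
    rw [← ENNReal.ofReal_toReal hptop, h]; simp
  set q := p.toReal with hq
  have hq0 : 0 < q := by linarith
  set ε : ℝ := (D - 1) / (4 * (D + 1)) with hε
  have hε0 : 0 < ε := div_pos (by linarith) (by linarith)
  have hε4 : 4 * ε < 1 := by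
    rw [hε, mul_div_assoc', div_lt_one (by linarith)]; linarith
  have hεD : 1 + 4 * ε = D * (1 - 4 * ε) := by
    rw [hε]; field_simp; ring
  obtain ⟨C, hC, H⟩ := Crest.Agent.R232.final_real q hq1 hq2 ε hε0 (by linarith)
  set γ : ℝ := if q < 2 then 2 - q else 1 - 2 / q with hγ
  have hγ1 : |1 - 2 / q| ≤ γ := by
    rw [hγ]
    split_ifs with h
    · have h1 : 1 - 2 / q < 0 := by rw [sub_neg, lt_div_iff₀ hq0]; linarith
      rw [abs_of_neg h1]
      have : 2 / q - 1 = (2 - q) / q := by field_simp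
      rw [neg_sub, this, div_le_iff₀ hq0]
      nlinarith
    · have h1 : 0 ≤ 1 - 2 / q := by
        rw [sub_nonneg, div_le_one hq0]; linarith
      rw [abs_of_nonneg h1]
  have hγ0 : 0 ≤ γ := (abs_nonneg _).trans hγ1
  refine ⟨C * 2 ^ γ, fun n hn α _ μ x hx => ?_⟩
  obtain ⟨hd, hdual⟩ := Crest.Agent.R232.lp_dual p hptop μ x hx
  obtain ⟨d, hdle, y, σ, hσ, hy⟩ := H n hn _ hd hdual
  have hn2 : (2 : ℝ) ≤ n := by exact_mod_cast hn
  have hlog2 : Real.log 2 ≤ Real.log n := Real.log_le_log (by norm_num) hn2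
  have hL : Real.log (2 * n) = Real.log 2 + Real.log n :=
    Real.log_mul (by norm_num) (by linarith)
  have hl2 := Real.log_two_gt_d9
  have hL1 : 1 ≤ Real.log (2 * n) := by rw [hL]; linarith
  refine ⟨d, hdle.trans (Real.exp_le_exp.mpr ?_), fun i => WithLp.toLp p (y i),
    (σ * (1 - 4 * ε)) ^ (1 / q), Real.rpow_pos_of_pos (mul_pos hσ (by linarith)) _, fun i j => ?_⟩
  · rw [mul_assoc]
    refine mul_le_mul_of_nonneg_left ?_ hC.le
    calc Real.log (2 * n) ^ |1 - 2 / q| ≤ Real.log (2 * n) ^ γ :=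
          Real.rpow_le_rpow_of_exponent_le hL1 hγ1
      _ ≤ (2 * Real.log n) ^ γ := Real.rpow_le_rpow (by linarith) (by rw [hL]; linarith) hγ0
      _ = 2 ^ γ * Real.log n ^ γ := Real.mul_rpow (by norm_num) (by linarith)
  · by_cases hij : i = j
    · subst hij; simp
    obtain ⟨h1, h2⟩ := hy i j hij
    have hσε : 0 < σ * (1 - 4 * ε) := mul_pos hσ (by linarith)
    have hnorm : ‖(WithLp.toLp p (y i) : PiLp p (fun _ : Fin d => ℝ)) - WithLp.toLp p (y j)‖ =
        (∑ t, |y i t - y j t| ^ q) ^ (1 / q) := by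
      rw [PiLp.norm_eq_sum hq0]
      simp [hq]
    have hN : 0 ≤ ‖x i - x j‖ := norm_nonneg _
    have hpow : ∀ a : ℝ, 0 ≤ a → (a * ‖x i - x j‖ ^ q) ^ (1 / q) = a ^ (1 / q) * ‖x i - x j‖ := by
      intro a ha
      rw [Real.mul_rpow ha (Real.rpow_nonneg hN _), ← Real.rpow_mul hN, mul_one_div_cancel hq0.ne',
        Real.rpow_one]
    rw [hnorm]
    constructor
    · rw [← hpow _ hσε.le]
      exact Real.rpow_le_rpow (mul_nonneg hσε.le (Real.rpow_nonneg hN _)) h1 (by positivity)
    · refine (Real.rpow_le_rpow (Finset.sum_nonneg fun t _ => Real.rpow_nonneg (abs_nonneg _) _) h2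
        (by positivity)).trans ?_
      rw [hpow _ (by positivity)]
      refine mul_le_mul_of_nonneg_right ?_ hN
      rw [hεD, mul_left_comm, Real.mul_rpow (by linarith) hσε.le]
      refine mul_le_mul_of_nonneg_right ?_ (Real.rpow_nonneg hσε.le _)
      calc D ^ (1 / q) ≤ D ^ (1 : ℝ) := Real.rpow_le_rpow_of_exponent_le hD.le
            (by rw [div_le_one hq0]; linarith)
        _ = D := Real.rpow_one D

end Crest.Agent.S0358
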