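import Crest.Statements.S0359
import Crest.Agent.R232.Iso

set_option autoImplicit false
open MeasureTheory
open scoped ENNReal
open Crest Crest.GeometryTopology

namespace Crest.Agent.S0359

theorem norm_toLp_sub (p : ℝ≥0∞) [Fact (1 ≤ p)] (hptop : p ≠ ⊤) {α : Type} [Fintype α]
    [MeasurableSpace α] [DiscreteMeasurableSpace α] (f g : α → ℝ) :
    ‖(MemLp.of_discrete (f := f) (p := p) (μ := Measure.count)).toLp f -
      (MemLp.of_discrete (f := g) (p := p) (μ := Measure.count)).toLp g‖ ^ p.toReal =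
      ∑ a, |f a - g a| ^ p.toReal := by
  have hp1 : 1 ≤ p := Fact.out
  have hp0 : p ≠ 0 := by intro h; rw [h] at hp1; exact absurd hp1 (by simp)
  have hq : 0 < p.toReal := ENNReal.toReal_pos hp0 hptop
  rw [← MemLp.toLp_sub, Lp.norm_toLp, MemLp.eLpNorm_eq_integral_rpow_norm hp0 hptop
    MemLp.of_discrete, integral_count, ENNReal.toReal_ofReal (by positivity),
    ← Real.rpow_mul (by positivity), inv_mul_cancel₀ hq.ne', Real.rpow_one]
  simp

/-- the special points: zero, rows, columns and their negatives -/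
noncomputable def pt (k : ℕ) : Option (Bool × Bool × Fin k) → Fin k × Fin k → ℝ
  | none => fun _ => 0
  | some (b, s, i) => fun a =>
      if (if b then a.1 else a.2) = i then (if s then 1 else -1) else 0

theorem sum_ind1 {k : ℕ} (i : Fin k) (c : ℝ) :
    ∑ a : Fin k × Fin k, (if a.1 = i then c else 0) = c * k := by
  rw [Fintype.sum_prod_type_right]
  simp only [Finset.sum_ite_eq', Finset.mem_univ, if_true, Finset.sum_const, Finset.card_univ,
    Fintype.card_fin, nsmul_eq_mul]
  ring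

theorem sum_ind2 {k : ℕ} (i : Fin k) (c : ℝ) :
    ∑ a : Fin k × Fin k, (if a.2 = i then c else 0) = c * k := by
  rw [Fintype.sum_prod_type]
  simp only [Finset.sum_ite_eq', Finset.mem_univ, if_true, Finset.sum_const, Finset.card_univ,
    Fintype.card_fin, nsmul_eq_mul]
  ring

theorem sum_ind {k : ℕ} (b : Bool) (i : Fin k) (c : ℝ) :
    ∑ a : Fin k × Fin k, (if (if b then a.1 else a.2) = i then c else 0) = c * k := by
  cases b
  · simpa using sum_ind2 i c
  · simpa using sum_ind1 i c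

theorem pt_zero {k : ℕ} {q : ℝ} (hq : 0 < q) (b s : Bool) (i : Fin k) :
    ∑ a, |pt k (some (b, s, i)) a - pt k none a| ^ q = k := by
  rw [← one_mul (k : ℝ), ← sum_ind b i 1]
  refine Finset.sum_congr rfl fun a _ => ?_
  simp only [pt]
  split_ifs <;> simp [hq.ne']

theorem pt_opp {k : ℕ} {q : ℝ} (hq : 0 < q) (b : Bool) (i : Fin k) :
    ∑ a, |pt k (some (b, true, i)) a - pt k (some (b, false, i)) a| ^ q = 2 ^ q * k := by
  rw [← sum_ind b i (2 ^ q)]
  refine Finset.sum_congr rfl fun a _ => ?_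
  simp only [pt]
  by_cases h : (if b then a.1 else a.2) = i
  · simp only [h, if_true]; norm_num
  · simp [h, hq.ne']

theorem pt_ne {k : ℕ} {q : ℝ} (hq : 0 < q) (b s : Bool) {i i' : Fin k} (h : i ≠ i') :
    ∑ a, |pt k (some (b, true, i)) a - pt k (some (b, s, i')) a| ^ q = 2 * k := by
  rw [two_mul, ← one_mul (k : ℝ)]
  nth_rewrite 1 [← sum_ind b i 1]
  rw [← sum_ind b i' 1, ← Finset.sum_add_distrib]
  refine Finset.sum_congr rfl fun a _ => ?_
  simp only [pt]
  by_cases h1 : (if b then a.1 else a.2) = i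
  · have h2 : ¬ (if b then a.1 else a.2) = i' := fun h2 => h (h1.symm.trans h2)
    simp only [h2, if_false]
    simp [h1]
  · simp only [h1, if_false]
    by_cases h2 : (if b then a.1 else a.2) = i'
    · simp only [h2, if_true]
      cases s <;> simp
    · simp [h2, hq.ne']

theorem pt_cross {k : ℕ} {q : ℝ} (hq : 0 < q) (i j : Fin k) :
    ∑ a, |pt k (some (true, true, i)) a - pt k (some (false, true, j)) a| ^ q = 2 * k - 2 := by
  have h3 : ∑ a : Fin k × Fin k, (if a = (i, j) then (2 : ℝ) else 0) = 2 := by simp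
  rw [two_mul, ← one_mul (k : ℝ)]
  nth_rewrite 1 [← sum_ind1 i 1]
  rw [← sum_ind2 j 1, ← Finset.sum_add_distrib, ← h3, ← Finset.sum_sub_distrib]
  refine Finset.sum_congr rfl fun a _ => ?_
  obtain ⟨a1, a2⟩ := a
  simp only [pt, Prod.mk.injEq]
  by_cases h1 : a1 = i <;> by_cases h2 : a2 = j <;> simp [h1, h2, hq.ne']
  norm_num

/-- Fix an exponent 1 < p < ∞ with p ≠ 2 and n ≥ 9. If d is a dimension such that every n distinct points of any real L^p space can be mapped to the d-dimensional real ℓ^p space with all pairwise distances multiplied by one common factor s > 0 (an isometric embedding up to scaling), then ⌊(n − 1)/4⌋² ≤ d. -/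
theorem result
    (p : ℝ≥0∞) [Fact (1 ≤ p)] (hp1 : 1 < p) (hptop : p ≠ ⊤) (hp2 : p ≠ 2)
    (n : ℕ) (hn : 9 ≤ n) (d : ℕ)
    (hd : ∀ (α : Type) [MeasurableSpace α] (μ : Measure α) (x : Fin n → Lp ℝ p μ),
      Function.Injective x →
      ∃ (y : Fin n → PiLp p (fun _ : Fin d => ℝ)) (s : ℝ), 0 < s ∧
        ∀ i j, ‖y i - y j‖ = s * ‖x i - x j‖) :
    ((n - 1) / 4) ^ 2 ≤ d := by
  classical
  have hq1 : 1 < p.toReal := by
    have := (ENNReal.toReal_lt_toReal (by simp : (1 : ℝ≥0∞) ≠ ⊤) hptop).mpr hp1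
    simpa using this
  have hq2 : p.toReal ≠ 2 := by
    intro h
    apply hp2
    rw [← ENNReal.ofReal_toReal hptop, h]; simp
  have hq0 : 0 < p.toReal := by linarith
  set k := (n - 1) / 4 with hk
  have hk2 : 2 ≤ k := by omega
  letI : MeasurableSpace (Fin k × Fin k) := ⊤
  haveI : DiscreteMeasurableSpace (Fin k × Fin k) := ⟨fun _ => trivial⟩
  haveI : Nonempty (Fin k × Fin k) := ⟨(⟨0, by omega⟩, ⟨0, by omega⟩)⟩
  obtain ⟨S, hS, hcard⟩ := Infinite.exists_superset_card_eq
    (Finset.univ.image (pt k)) n (Finset.card_image_le.trans (by simp; omega))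
  let e := S.equivFinOfCardEq hcard
  let F : Fin n → Fin k × Fin k → ℝ := fun i => (e.symm i).1
  have hF : Function.Injective F := fun i j h => e.symm.injective (Subtype.ext h)
  let x : Fin n → Lp ℝ p (Measure.count : Measure (Fin k × Fin k)) := fun i =>
    (MemLp.of_discrete (f := F i) (p := p) (μ := Measure.count)).toLp (F i)
  have hx : ∀ i j, ‖x i - x j‖ ^ p.toReal = ∑ a, |F i a - F j a| ^ p.toReal := fun i j =>
    norm_toLp_sub p hptop _ _
  have hxi : Function.Injective x := by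
    intro i j h
    apply hF
    funext a
    have h1 := hx i j
    rw [h, sub_self, norm_zero, Real.zero_rpow hq0.ne'] at h1
    have h2 := (Finset.sum_eq_zero_iff_of_nonneg fun a _ =>
      Real.rpow_nonneg (abs_nonneg _) _).mp h1.symm a (Finset.mem_univ a)
    have h3 := (Real.rpow_eq_zero (abs_nonneg _) hq0.ne').mp h2
    exact sub_eq_zero.mp (abs_eq_zero.mp h3)
  obtain ⟨y, s, hs, hy⟩ := hd _ _ x hxi
  let ι : Option (Bool × Bool × Fin k) → Fin n := fun u =>
    e ⟨pt k u, hS (Finset.mem_image_of_mem _ (Finset.mem_univ u))⟩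
  have hι : ∀ u, F (ι u) = pt k u := fun u => by simp [F, ι]
  have key : ∀ u v, ∑ t, |y (ι u) t - y (ι v) t| ^ p.toReal =
      s ^ p.toReal * ∑ a, |pt k u a - pt k v a| ^ p.toReal := by
    intro u v
    rw [← hι u, ← hι v, ← hx, ← Real.mul_rpow hs.le (norm_nonneg _), ← hy,
      PiLp.norm_eq_sum hq0, ← Real.rpow_mul (by positivity), one_div_mul_cancel hq0.ne',
      Real.rpow_one]
    simp
  let Y : Bool → Bool → Fin k → Fin d → ℝ := fun b c i t => y (ι (some (b, c, i))) t - y (ι none) t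
  have hY0 : ∀ b c i, ∑ t, |Y b c i t| ^ p.toReal = s ^ p.toReal * k := fun b c i => by
    rw [← pt_zero hq0 b c i, ← key]
  have hYd : ∀ b c i b' c' i', ∑ t, |Y b c i t - Y b' c' i' t| ^ p.toReal =
      s ^ p.toReal * ∑ a, |pt k (some (b, c, i)) a - pt k (some (b', c', i')) a| ^ p.toReal := by
    intro b c i b' c' i'
    rw [← key]
    simp only [Y, sub_sub_sub_cancel_right]
  exact Crest.Agent.R232.iso_core p.toReal hq1 hq2 k d (s ^ p.toReal) (Real.rpow_pos_of_pos hs _)
    (Y true true) (Y true false) (Y false true) (Y false false) (hY0 _ _) (hY0 _ _) (hY0 _ _)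
    (hY0 _ _) (fun i => by rw [hYd, pt_opp hq0]) (fun i => by rw [hYd, pt_opp hq0])
    (fun i i' h => by rw [hYd, pt_ne hq0 _ _ h]) (fun i i' h => by rw [hYd, pt_ne hq0 _ _ h])
    (fun i i' h => by rw [hYd, pt_ne hq0 _ _ h]) (fun i i' h => by rw [hYd, pt_ne hq0 _ _ h])
    (fun i j => by rw [hYd, pt_cross hq0])

end Crest.Agent.S0359
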