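import Crest.Statements.S0370
import Crest.Agent.R239.Main

set_option autoImplicit false
open Crest Crest.GeometryTopology

namespace Crest.Agent.S0370

/-- There is an absolute constant `C` such that, in every dimension `d`, every finite sequence of vectors of Euclidean norm at most one in `ℝ^d` admits one choice of signs `±1` under which every signed prefix sum has Euclidean norm at most `C * √d`. -/
theorem result :
    ∃ C : ℝ, ∀ (d N : ℕ) (v : Fin N → EuclideanSpace ℝ (Fin d)),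
      (∀ i, ‖v i‖ ≤ 1) →
      ∃ ε : Fin N → ℤ, (∀ i, ε i = 1 ∨ ε i = -1) ∧
        ∀ k : ℕ, k ≤ N →
          ‖∑ i ∈ Finset.univ.filter (fun i : Fin N => (i : ℕ) < k), (ε i : ℝ) • v i‖ ≤ C * Real.sqrt d := by
  obtain ⟨C, hC0, hC⟩ := Crest.Agent.R239.unit_case
  refine ⟨Real.sqrt (2 * C), fun d N v hv => ?_⟩
  classical
  let w : ℕ → Option (Fin d) → ℝ := fun t a =>
    if h : t < N then
      (match a with
        | none => Real.sqrt (1 - ‖v ⟨t, h⟩‖ ^ 2)
        | some b => v ⟨t, h⟩ b)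
    else 0
  have hw : ∀ t, t < N → w t ⬝ᵥ w t = 1 := by
    intro t ht
    have h1 : ‖v ⟨t, ht⟩‖ ^ 2 ≤ 1 := by
      have := hv ⟨t, ht⟩
      have h0 := norm_nonneg (v ⟨t, ht⟩)
      nlinarith
    have h2 : ‖v ⟨t, ht⟩‖ ^ 2 = ∑ b, v ⟨t, ht⟩ b * v ⟨t, ht⟩ b := by
      rw [EuclideanSpace.real_norm_sq_eq]
      exact Finset.sum_congr rfl fun b _ => by ring
    simp only [dotProduct, Fintype.sum_option, w, ht, dite_true]
    rw [Real.mul_self_sqrt (by linarith), ← h2]
    ring
  obtain ⟨ε, hε, hb⟩ := hC (Option (Fin d)) N w hw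
  refine ⟨fun i => if ε i = 1 then 1 else -1, fun i => by by_cases h : ε i = 1 <;> simp [h], ?_⟩
  intro k hk
  rcases Nat.eq_zero_or_pos d with hd | hd
  · subst hd
    rw [Subsingleton.elim (∑ i ∈ Finset.univ.filter (fun i : Fin N => (i : ℕ) < k), _) 0]
    simp
  have hcast : ∀ i : Fin N, (((if ε i = 1 then 1 else -1 : ℤ)) : ℝ) = ε i := by
    intro i
    rcases hε i i.2 with h | h
    · simp [h]
    · have : ¬ ε i = 1 := by rw [h]; norm_num
      rw [if_neg this, h]; simp
  have hb' := hb k hk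
  rw [Crest.Agent.R239.nrm_sq] at hb'
  have hcoord : ∀ b : Fin d,
      (∑ i ∈ Finset.univ.filter (fun i : Fin N => (i : ℕ) < k),
        (((if ε i = 1 then 1 else -1 : ℤ)) : ℝ) • v i) b
        = (∑ i ∈ Finset.range k, ε i • w i) (some b) := by
    intro b
    simp only [hcast, WithLp.ofLp_sum, Finset.sum_apply, WithLp.ofLp_smul, Pi.smul_apply,
      smul_eq_mul]
    refine Finset.sum_bij (fun i _ => (i : ℕ)) ?_ ?_ ?_ ?_
    · intro i hi; simpa using hi
    · intro i _ j _ h; exact Fin.ext h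
    · intro j hj
      have hj' : j < k := by simpa using hj
      exact ⟨⟨j, lt_of_lt_of_le hj' hk⟩, by simpa using hj', rfl⟩
    · intro i _
      simp [w]
  have hsq : ‖∑ i ∈ Finset.univ.filter (fun i : Fin N => (i : ℕ) < k),
        (((if ε i = 1 then 1 else -1 : ℤ)) : ℝ) • v i‖ ^ 2 ≤ 2 * C * d := by
    rw [EuclideanSpace.real_norm_sq_eq]
    simp only [hcoord]
    have h3 : ∑ b : Fin d, ((∑ i ∈ Finset.range k, ε i • w i) (some b)) ^ 2
        ≤ (∑ i ∈ Finset.range k, ε i • w i) ⬝ᵥ (∑ i ∈ Finset.range k, ε i • w i) := by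
      rw [Crest.Agent.R239.dot_self_eq_sum, Fintype.sum_option]
      nlinarith [sq_nonneg ((∑ i ∈ Finset.range k, ε i • w i) none)]
    have h4 : (Fintype.card (Option (Fin d)) : ℝ) = d + 1 := by simp
    have h5 : (1 : ℝ) ≤ d := by exact_mod_cast hd
    rw [h4] at hb'
    nlinarith
  rw [← Real.sqrt_mul (by linarith)]
  exact Real.le_sqrt_of_sq_le hsq

end Crest.Agent.S0370
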