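import Crest.Statements.S0435
import Crest.Agent.R290.Diag
import Crest.Agent.R290.USimFM

set_option autoImplicit false
open Crest Crest.LogicCS

namespace Crest.Agent.S0435

/-- For some absolute constant c > 0 and threshold k₀ and every k ≥ k₀, in the joint and the separate convention alike: if a multi-stack machine, on every code of a pair of simple connected graphs of diameter at most two with equally many vertices, outputs whether the two are k-dimensional Weisfeiler-Leman equivalent, within a step bound depending on the input length (nothing is asked on other inputs), then for all large n that bound is at least n^(c·k) at the input length of such n-vertex pairs. -/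
theorem result :
    ∃ c : ℝ, 0 < c ∧ ∃ k₀ : ℕ, ∀ k ≥ k₀,
      (∀ (g : Crest.WLRefine.diamTwoPairCodes → Bool),
        (∀ x, x.1 ∈ Crest.WLRefine.jointEquivLang k ↔ g x = true) →
        ∀ M : Turing.TM2ComputableInTime (fun x : Crest.WLRefine.diamTwoPairCodes => x.1)
            Computability.encodeBool g,
          ∃ n₀ : ℕ, ∀ n ≥ n₀,
            (n : ℝ) ^ (c * k) ≤ M.time (2 * ((Crest.Enc.natCode n).length + n * n))) ∧
      (∀ (g : Crest.WLRefine.diamTwoPairCodes → Bool),
        (∀ x, x.1 ∈ Crest.WLRefine.sepEquivLang k ↔ g x = true) →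
        ∀ M : Turing.TM2ComputableInTime (fun x : Crest.WLRefine.diamTwoPairCodes => x.1)
            Computability.encodeBool g,
          ∃ n₀ : ℕ, ∀ n ≥ n₀,
            (n : ℝ) ^ (c * k) ≤ M.time (2 * ((Crest.Enc.natCode n).length + n * n))) := by
  obtain ⟨c, hc, k₀, hk₀⟩ := R290.diag R290.fmUSim
  refine ⟨c, hc, max k₀ 2, fun k hk => ?_⟩
  have hk1 : k₀ ≤ k := le_of_max_le_left hk
  have hk2 : 2 ≤ k := le_of_max_le_right hk
  have key : ∀ (L : Set (List Bool))
      (E : (n : ℕ) → (Fin n → Fin n → Bool) → (Fin n → Fin n → Bool) → Prop),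
      (∀ n G H, R290.Game (k + 1) G H → E n G H) → (∀ n G H, 0 < n → E n G H → R290.Sim k G H) →
      (∀ n (G H : Fin n → Fin n → Bool), WLRefine.adjMatrixCode G ++ WLRefine.adjMatrixCode H ∈ L ↔
        WLRefine.IsSimple G ∧ WLRefine.IsSimple H ∧ E n G H) →
      ∀ (g : Crest.WLRefine.diamTwoPairCodes → Bool), (∀ x, x.1 ∈ L ↔ g x = true) →
        ∀ M : Turing.TM2ComputableInTime (fun x : Crest.WLRefine.diamTwoPairCodes => x.1)
            Computability.encodeBool g,
          ∃ n₀ : ℕ, ∀ n ≥ n₀,
            (n : ℝ) ^ (c * k) ≤ M.time (2 * ((Crest.Enc.natCode n).length + n * n)) := by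
    intro L E hE1 hE2 hL g hg M
    obtain ⟨code, D, C, -, hsim⟩ := R290.fm_sim M.toTM2ComputableAux true
    refine hk₀ k hk1 E hE1 hE2 (code, ⟨D⟩) C
      (fun n => M.time (2 * ((Crest.Enc.natCode n).length + n * n))) fun n G H hG hH => ?_
    set x : Crest.WLRefine.diamTwoPairCodes := ⟨_, n, G, H, hG, hH, rfl⟩ with hx
    obtain ⟨h1, h2⟩ := hsim x.1 (g x) _ (M.outputsFun x)
    have h3 : x.1.length = 2 * ((Crest.Enc.natCode n).length + n * n) := R290.length_pair_code G H
    rw [h3] at h1 h2
    rw [R290.fmUSim_run]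
    refine ⟨decide_eq_true h1, ?_⟩
    refine Iff.trans decide_eq_true_iff (h2.trans ((hg x).symm.trans ((hL n G H).trans ?_)))
    simp [hG.1, hH.1]
  exact ⟨key _ (fun _ G H => WLRefine.JEquiv k G H) (fun _ _ _ h => h.jEquiv (by omega))
      (fun _ _ _ hn h => R290.jEquiv_sim h hk2 hn) (fun _ G H => R290.mem_jointEquivLang G H),
    key _ (fun _ G H => WLRefine.SEquiv k G H) (fun _ _ _ h => h.sEquiv (by omega))
      (fun _ _ _ hn h => R290.sEquiv_sim h hk2 hn) (fun _ G H => R290.mem_sepEquivLang G H)⟩

end Crest.Agent.S0435
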