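import Crest.Statements.S0436
import Crest.Agent.R290.ExpHard
import Crest.Agent.R290.ExpMemA

set_option autoImplicit false
open Crest Crest.LogicCS

namespace Crest.Agent.S0436

/-- Deciding, for k ≥ 2 in binary and two simple graphs given by adjacency matrices, whether they are k-dimensional Weisfeiler-Leman equivalent in the joint-update convention (equal colour histograms at every round) is EXPTIME-complete under polynomial-time many-one reductions, and so is its restriction to pairs of connected graphs of maximum degree at most three with equally many vertices. EXPTIME: some test decides membership within c·2^(N^k) + c steps on inputs of length N, for some k and c. -/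
theorem result :
    Crest.ExpTime.EXPComplete Crest.WLRefine.varDimEquivLang ∧
      Crest.ExpTime.EXPComplete Crest.WLRefine.subcubicVarDimEquivLang := by
  have key : ∀ A : Set (List Bool), Crest.ExpTime.InEXP A → ∃ f : List Bool → List Bool,
      Crest.Complexity.PolyTime f ∧ ∀ x, ∃ (k n : ℕ) (G H : Fin n → Fin n → Bool), 2 ≤ k ∧ 0 < n ∧
        WLRefine.SimpleConnSubcubic G ∧ WLRefine.SimpleConnSubcubic H ∧
        (x ∈ A ↔ WLRefine.JEquiv k G H) ∧
        f x = Crest.Enc.natCode k ++ WLRefine.adjMatrixCode G ++ WLRefine.adjMatrixCode H := by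
    intro A hA
    obtain ⟨z, hz, h⟩ := R290.exp_pipe hA false
    have h1 := R290.PT.pcode hz false
    have h2 := R290.PT.pcode hz true
    have h0 : PTime.PT (fun x => Crest.Enc.natCode (2 * (z x).2.2.2.2.val + 3)) := by fun_prop
    refine ⟨fun x => Crest.Enc.natCode (2 * (z x).2.2.2.2.val + 3) ++
      R290.codeF (R290.pN (z x)) (R290.pF (z x) false) ++
      R290.codeF (R290.pN (z x)) (R290.pF (z x) true), PTime.PT.polyTime ((h0.append h1).append h2),
      fun x => ?_⟩
    obtain ⟨h3, h4⟩ := h x
    have h5 := R290.p_five (z x)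
    refine ⟨2 * (z x).2.2.2.2.val + 3, R290.pN (z x), _, _, by omega, by omega,
      R290.p_promise _ false, R290.p_promise _ true, ⟨fun hx => ?_, fun he => ?_⟩, ?_⟩
    · exact (R290.p_game h4 (by simpa using hx) (K := 2 * (z x).2.2.2.2.val + 4) (by omega)).jEquiv
        (by omega)
    · by_contra hx
      exact R290.p_not_sim h4 (by simpa using hx) le_rfl (R290.jEquiv_sim he (by omega) (by omega))
    · rw [R290.adjMatrixCode_mat, R290.adjMatrixCode_mat]
  refine ⟨⟨R290.varDim_inEXP, fun A hA => ?_⟩, ⟨R290.subcubic_inEXP, fun A hA => ?_⟩⟩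
  · obtain ⟨f, hf, h⟩ := key A hA
    refine ⟨f, hf, fun x => ?_⟩
    obtain ⟨k, n, G, H, h1, h2, h3, h4, h5, h6⟩ := h x
    rw [h6, R290.mem_varDimEquivLang, h5]
    simp [h1, h3.1, h4.1]
  · obtain ⟨f, hf, h⟩ := key A hA
    refine ⟨f, hf, fun x => ?_⟩
    obtain ⟨k, n, G, H, h1, h2, h3, h4, h5, h6⟩ := h x
    rw [h6, R290.mem_subcubicVarDimEquivLang, h5]
    simp [h1, h2, h3, h4]

end Crest.Agent.S0436
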