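import Crest.Statements.S0437
import Crest.Agent.R290.ExpHard
import Crest.Agent.R290.ExpMemB

set_option autoImplicit false
open Crest Crest.LogicCS

namespace Crest.Agent.S0437

/-- Deciding, for a positive integer k in binary and a simple graph with at least one vertex given by its adjacency matrix, whether some dimension k' with 1 ≤ k' ≤ k identifies the graph (every simple graph equivalent to it under k'-dimensional Weisfeiler-Leman refinement, ordinary colour refinement for k' = 1 and the joint-update convention for k' ≥ 2, is isomorphic to it), that is whether its Weisfeiler-Leman dimension is at most k, is EXPTIME-complete under polynomial-time many-one reductions. -/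
theorem result :
    Crest.ExpTime.EXPComplete Crest.WLRefine.wlDimLeLang := by
  refine ⟨R290.wlDimLe_inEXP, fun A hA => ?_⟩
  obtain ⟨z, hz, h⟩ := R290.exp_pipe hA true
  have h1 := R290.PT.pcode hz false
  refine ⟨fun x => Crest.Enc.natCode (2 * (z x).2.2.2.2.val + 3) ++
    R290.codeF (R290.pN (z x)) (R290.pF (z x) false), PTime.PT.polyTime (by fun_prop), fun x => ?_⟩
  obtain ⟨h3, h4⟩ := h x
  have h5 := R290.p_five (z x)
  dsimp only
  rw [← R290.adjMatrixCode_mat, R290.mem_wlDimLeLang]
  constructor
  · intro hx
    refine ⟨by omega, by omega, (R290.p_promise _ false).1, 2 * (z x).2.2.2.2.val + 3, by omega,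
      le_rfl, fun m H _ he => ?_⟩
    rw [WLRefine.WLEquiv, if_neg (by omega)] at he
    exact (R290.p_discrete h4 (by simpa using hx) le_rfl).iso
      (R290.jEquiv_sim he (by omega) (by omega)) (by omega)
  · rintro ⟨-, -, -, k', hk1, hk2, hid⟩
    by_contra hx
    have hg := R290.p_game h4 (by simpa using hx) (K := 2 * (z x).2.2.2.2.val + 4) (by omega)
    refine R290.p_not_iso (z := z x) (by omega) (hid _ _ (R290.p_promise _ true).1 ?_)
    unfold WLRefine.WLEquiv
    split_ifs
    · exact hg.crEquiv (by omega)
    · exact hg.jEquiv (by omega)

end Crest.Agent.S0437
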