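import Crest.Statements.S0439
import Crest.Agent.R290.Diag
import Crest.Agent.R290.RAM

set_option autoImplicit false
open Crest Crest.LogicCS

namespace Crest.Agent.S0439

/-- For some absolute c > 0 and k₀, every k ≥ k₀ and every word-length constant c₀, in the joint and the separate convention alike: if a word-RAM program with words of c₀·⌈log₂(n+2)⌉ bits, started on the codes of two simple connected graphs of diameter at most two on n vertices written one bit per memory word, is halted after T(n) steps on every such pair and every random stream with output [1] exactly when the two graphs are k-dimensionally equivalent, then T(n) ≥ n^(c·k) for all large n. -/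
theorem result :
    ∃ c : ℝ, 0 < c ∧ ∃ k₀ : ℕ, ∀ k ≥ k₀, ∀ c₀ : ℕ,
      (∀ (P : Crest.WordRAM.Program) (T : ℕ → ℕ),
        (∀ (n : ℕ) (G H : Fin n → Fin n → Bool), Crest.WLRefine.SimpleConnDiamTwo G →
          Crest.WLRefine.SimpleConnDiamTwo H → ∀ ρ : ℕ → ℕ,
            (Crest.WordRAM.run P (c₀ * Nat.clog 2 (n + 2)) ρ (((Crest.WLRefine.adjMatrixCode G ++ Crest.WLRefine.adjMatrixCode H).map fun b => if b then 1 else 0)) (T n)).halted = true ∧
            ((Crest.WordRAM.run P (c₀ * Nat.clog 2 (n + 2)) ρ (((Crest.WLRefine.adjMatrixCode G ++ Crest.WLRefine.adjMatrixCode H).map fun b => if b then 1 else 0)) (T n)).output = [1] ↔ Crest.WLRefine.JEquiv k G H)) →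
        ∃ n₀ : ℕ, ∀ n ≥ n₀, (n : ℝ) ^ (c * k) ≤ T n) ∧
      (∀ (P : Crest.WordRAM.Program) (T : ℕ → ℕ),
        (∀ (n : ℕ) (G H : Fin n → Fin n → Bool), Crest.WLRefine.SimpleConnDiamTwo G →
          Crest.WLRefine.SimpleConnDiamTwo H → ∀ ρ : ℕ → ℕ,
            (Crest.WordRAM.run P (c₀ * Nat.clog 2 (n + 2)) ρ (((Crest.WLRefine.adjMatrixCode G ++ Crest.WLRefine.adjMatrixCode H).map fun b => if b then 1 else 0)) (T n)).halted = true ∧
            ((Crest.WordRAM.run P (c₀ * Nat.clog 2 (n + 2)) ρ (((Crest.WLRefine.adjMatrixCode G ++ Crest.WLRefine.adjMatrixCode H).map fun b => if b then 1 else 0)) (T n)).output = [1] ↔ Crest.WLRefine.SEquiv k G H)) →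
        ∃ n₀ : ℕ, ∀ n ≥ n₀, (n : ℝ) ^ (c * k) ≤ T n) := by
  obtain ⟨A, σ, iA, iσ, S, hS⟩ := R290.exists_ram_usim
  obtain ⟨c, hc, k₀, hk₀⟩ := R290.diag S
  refine ⟨c, hc, max k₀ 2, fun k hk c₀ => ?_⟩
  have hk1 : k₀ ≤ k := le_of_max_le_left hk
  have hk2 : 2 ≤ k := le_of_max_le_right hk
  have key : ∀ (E : (n : ℕ) → (Fin n → Fin n → Bool) → (Fin n → Fin n → Bool) → Prop),
      (∀ n G H, R290.Game (k + 1) G H → E n G H) → (∀ n G H, 0 < n → E n G H → R290.Sim k G H) →
      ∀ (P : Crest.WordRAM.Program) (T : ℕ → ℕ),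
        (∀ (n : ℕ) (G H : Fin n → Fin n → Bool), Crest.WLRefine.SimpleConnDiamTwo G →
          Crest.WLRefine.SimpleConnDiamTwo H → ∀ ρ : ℕ → ℕ,
            (Crest.WordRAM.run P (c₀ * Nat.clog 2 (n + 2)) ρ (((Crest.WLRefine.adjMatrixCode G ++ Crest.WLRefine.adjMatrixCode H).map fun b => if b then 1 else 0)) (T n)).halted = true ∧
            ((Crest.WordRAM.run P (c₀ * Nat.clog 2 (n + 2)) ρ (((Crest.WLRefine.adjMatrixCode G ++ Crest.WLRefine.adjMatrixCode H).map fun b => if b then 1 else 0)) (T n)).output = [1] ↔ E n G H)) →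
        ∃ n₀ : ℕ, ∀ n ≥ n₀, (n : ℝ) ^ (c * k) ≤ T n := by
    intro E hE1 hE2 P T hP
    obtain ⟨a, ha⟩ := hS P c₀
    refine hk₀ k hk1 E hE1 hE2 a 1 T fun n G H hG hH => ?_
    obtain ⟨h1, h2⟩ := hP n G H hG hH (fun _ => 0)
    obtain ⟨h3, h4⟩ := ha n (WLRefine.adjMatrixCode G ++ WLRefine.adjMatrixCode H) (T n)
    have h5 : S.run a n (WLRefine.adjMatrixCode G ++ WLRefine.adjMatrixCode H) (1 * (T n + 1)) =
        S.run a n (WLRefine.adjMatrixCode G ++ WLRefine.adjMatrixCode H) (T n) := by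
      rw [one_mul, R290.USim.run, Function.iterate_succ_apply']
      exact S.stat _ (h3.trans h1)
    rw [h5]
    exact ⟨h3.trans h1, h4.trans h2⟩
  exact ⟨key (fun _ G H => WLRefine.JEquiv k G H) (fun _ _ _ h => h.jEquiv (by omega))
      (fun _ _ _ hn h => R290.jEquiv_sim h hk2 hn),
    key (fun _ G H => WLRefine.SEquiv k G H) (fun _ _ _ h => h.sEquiv (by omega))
      (fun _ _ _ hn h => R290.sEquiv_sim h hk2 hn)⟩

end Crest.Agent.S0439
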