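import Crest.Statements.S0464
import Crest.Agent.R304.Top

set_option autoImplicit false
open Crest.Enc Crest.FinProb Crest.Randomized Crest.Matchings
open Crest Crest.LogicCS

namespace Crest.Agent.S0464

/-- A randomized polynomial-time approximation scheme counts perfect matchings of simple graphs: one algorithm and one polynomial r such that, on the code of a graph, of rationals 0 < ε < 1, 0 < δ < 1/2 and a unary block of length ⌈1/ε⌉, run with r(input length) fair random bits, every tape yields the code of a nonnegative rational, which with probability at least 1 − δ is within a factor 1 ± ε of the number of perfect matchings, and which is 0 on every tape when there is no perfect matching. -/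
theorem result :
    ∃ (A : List Bool × List Bool → List Bool) (r : Polynomial ℕ), RandPolyTime A ∧
      ∀ (n : ℕ) (G : SimpleGraph (Fin n)) [DecidableRel G.Adj] (ε δ : ℚ),
        0 < ε → ε < 1 → 0 < δ → δ < 1 / 2 →
        (∀ ω : Fin (r.eval (graphCode n G ++ ratCode ε ++ ratCode δ ++ List.replicate ⌈ε⁻¹⌉₊ true).length) → Bool,
          ∃ z : ℚ, 0 ≤ z ∧ A (graphCode n G ++ ratCode ε ++ ratCode δ ++ List.replicate ⌈ε⁻¹⌉₊ true, List.ofFn ω) = ratCode z) ∧
        (numPerfectMatchings G = 0 →
          ∀ ω : Fin (r.eval (graphCode n G ++ ratCode ε ++ ratCode δ ++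
              List.replicate ⌈ε⁻¹⌉₊ true).length) → Bool,
            A (graphCode n G ++ ratCode ε ++ ratCode δ ++ List.replicate ⌈ε⁻¹⌉₊ true,
              List.ofFn ω) = ratCode 0) ∧
        1 - (δ : ℝ) ≤ uniformProb {ω : Fin (r.eval (graphCode n G ++ ratCode ε ++ ratCode δ ++
              List.replicate ⌈ε⁻¹⌉₊ true).length) → Bool |
            ∃ z : ℚ, A (graphCode n G ++ ratCode ε ++ ratCode δ ++ List.replicate ⌈ε⁻¹⌉₊ true,
              List.ofFn ω) = ratCode z ∧
              (1 - ε) * numPerfectMatchings G ≤ z ∧ z ≤ (1 + ε) * numPerfectMatchings G} := by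
  open Crest.Agent.R309 Crest.Agent.PTime in
  obtain ⟨r, hr⟩ := exists_poly (fun n => R304.clen (n ^ 2 + 100)) (R304.PB.clen (by fun_prop))
  refine ⟨fun p => ratCode (R304.cntA (R304.nOf p.1) (R309.sOf p.1) (R304.gOf p.1) p.2), r,
    R309.randPT R304.pt_top, ?_⟩
  intro n G _ ε δ hε hε1 hδ hδ1
  generalize hw : graphCode n G ++ ratCode ε ++ ratCode δ ++ List.replicate ⌈ε⁻¹⌉₊ true = w
  have hw' : w = graphCode n G ++ (ratCode ε ++ (ratCode δ ++ List.replicate ⌈ε⁻¹⌉₊ true)) := by
    rw [← hw]; simp only [List.append_assoc]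
  have hn : R304.nOf w = n := by rw [hw']; exact R304.nOf_code _ _ _
  have hN : R304.numG (R304.adjA n (R304.gOf w)) = numPerfectMatchings G := by rw [hw']; exact R304.numG_code _ _ _
  have hsym : ∀ u v : Fin n, R304.adjA n (R304.gOf w) u v = R304.adjA n (R304.gOf w) v u := fun u v => by
    rw [hw', R304.adj_code, R304.adj_code]; simp only [G.adj_comm]
  have h100 := R309.hundred_le_sOf w
  have hle := R309.le_sOf w
  have hns : n ≤ R309.sOf w := by rw [← hn]; exact le_trans (min_le_right _ _) hle
  simp only [hn]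
  refine ⟨fun ω => ⟨_, R304.cntA_nonneg _, rfl⟩, fun h0 ω => ?_, ?_⟩
  · rw [R304.cntA_zero (by omega) (by rw [hN]; exact h0)]
  · have hlen : R304.clen (R309.sOf w) ≤ r.eval w.length := hr w.length
    have hsp := R304.cntA_spec hns h100 hsym hlen
    rw [hN] at hsp
    have hδ' : (1 : ℝ) / 2 ^ R309.sOf w ≤ δ :=
      R309.inv_pow_le_rat hδ (le_trans (by rw [hw']; simp only [List.length_append]; omega) hle)
    have hε' : 1 / (R309.sOf w : ℚ) ≤ ε := by
      have h1 : ⌈ε⁻¹⌉₊ ≤ R309.sOf w :=
        le_trans (by rw [hw']; simp only [List.length_append, List.length_replicate]; omega) hle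
      have h2 : ε⁻¹ ≤ (R309.sOf w : ℚ) := (Nat.le_ceil _).trans (by exact_mod_cast h1)
      rw [one_div]
      exact inv_le_of_inv_le₀ hε h2
    rw [R309.uniformProb_eq_Ex (r.eval w.length) (fun l => ∃ z : ℚ,
      ratCode (R304.cntA n (R309.sOf w) (R304.gOf w) l) = ratCode z ∧
        (1 - ε) * numPerfectMatchings G ≤ z ∧ z ≤ (1 + ε) * numPerfectMatchings G)]
    simp only [R309.ind_not] at hsp
    rw [R309.Ex_sub, R309.Ex_const] at hsp
    refine le_trans (by linarith) (R309.Ex_mono (f := fun t => R309.ind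
      ((1 - 1 / (R309.sOf w : ℚ)) * (numPerfectMatchings G) ≤ R304.cntA n (R309.sOf w) (R304.gOf w) t ∧
        R304.cntA n (R309.sOf w) (R304.gOf w) t ≤ (1 + 1 / (R309.sOf w : ℚ)) * (numPerfectMatchings G)))
      fun l _ => ?_)
    by_cases h : (1 - 1 / (R309.sOf w : ℚ)) * (numPerfectMatchings G) ≤
        R304.cntA n (R309.sOf w) (R304.gOf w) l ∧
        R304.cntA n (R309.sOf w) (R304.gOf w) l ≤ (1 + 1 / (R309.sOf w : ℚ)) * (numPerfectMatchings G)
    · have hN : (0 : ℚ) ≤ numPerfectMatchings G := Nat.cast_nonneg _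
      rw [R309.ind_true h, R309.ind_true ⟨_, rfl,
        le_trans (mul_le_mul_of_nonneg_right (sub_le_sub_left hε' 1) hN) h.1,
        le_trans h.2 (mul_le_mul_of_nonneg_right (add_le_add_right hε' 1) hN)⟩]
    · rw [R309.ind_false h]; exact R309.ind_nonneg _

end Crest.Agent.S0464
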