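import Crest.Statements.S0488
import Crest.Agent.R316.Main
import Crest.Agent.R316.Parse
import Crest.Agent.R316.FormCH
import Crest.Agent.R316.Bridge

set_option autoImplicit false
open Crest Crest.LogicCS

namespace Crest.Agent.S0488

/-- Deciding the truth of a well-formed sentence ∃ x ∈ ℝ^r ∀ y ∈ ℝ^s Φ(x, y), presented as a bit string, where Φ is a Boolean combination of atoms p = 0 and p > 0 and each p is an integer polynomial in x, y given by an arithmetic circuit with binary constants and sharing, evaluated exactly in ℝ, lies in a fixed level of the counting hierarchy (level 0 is P; the level after a class holds the problems defined from one of its members by a majority count over all strings of a polynomial length). -/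
theorem result :
    ∃ j : ℕ, Crest.RealEA.EATR ∈ Crest.CountHier.level j := by
  obtain ⟨dec, hdec, hS⟩ := R316.exists_dec
  have h1 : R316.CH (fun w : List Bool => ((dec w).encode = w ∧ (dec w).WF) ∧
      ∃ x, ¬ R316.Solv (R316.nS (dec w)) (R316.mS (dec w)) (R316.FS (dec w)) x) :=
    (R316.CH.of_PT (((R316.PT.encode.comp hdec).eq PTime.PT.id).and (R316.PT.wf.comp hdec))).and
      ((R316.main R316.good_FS).comp hdec)
  obtain ⟨j, hj⟩ := h1.mem_level
  refine ⟨j, ?_⟩
  convert hj using 1
  ext w
  constructor
  · rintro ⟨S, h1, h2, rfl⟩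
    simp only [Set.mem_setOf_eq, hS]
    exact ⟨⟨trivial, h1⟩, (R316.isTrue_iff h1).1 h2⟩
  · rintro ⟨⟨h1, h2⟩, h3⟩
    exact ⟨dec w, h2, (R316.isTrue_iff h2).2 h3, h1⟩

end Crest.Agent.S0488
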