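import Crest.Statements.S0554
import Crest.Agent.R350.Params

set_option autoImplicit false
open Crest.MathPhysics.Query
open Crest Crest.MathPhysics

namespace Crest.Agent.S0554

/-- For every `k ≥ 2` there are constants `c, C, b > 0` such that for every large enough power of four `m` some total Boolean function on finitely many bits has a quantum query algorithm with at most `C √m (log m)^b` queries and error at most `1/3` on every input, while every randomized algorithm with error at most `1/3` on every input reads at least `c m^{2 - 1/k} / (log m)^2` bits on some input. So no power below four bounds randomized by quantum query complexity. -/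
theorem result (k : ℕ) (hk : 2 ≤ k) :
    ∃ (c C b : ℝ), 0 < c ∧ 0 < C ∧ 0 < b ∧ ∃ m₀ : ℕ, ∀ m : ℕ, m₀ ≤ m → (∃ j : ℕ, m = 4 ^ j) →
      ∃ (n : ℕ) (F : (Fin n → Bool) → Bool),
        (∃ q : ℕ, (q : ℝ) ≤ C * Real.sqrt m * Real.log m ^ b ∧ QuantumComputes F q) ∧
        (∀ r : ℕ, RandomizedComputes F r →
          c * (m : ℝ) ^ (2 - 1 / (k : ℝ)) / Real.log m ^ 2 ≤ r) := by
  obtain ⟨n₀, h⟩ := Filter.eventually_atTop.1 (Crest.Agent.R350.main_ev k hk)
  refine ⟨1 / 5, 12 * 2 ^ (7 * k + 13), ((7 * k + 13 : ℕ) : ℝ), by norm_num, by positivity,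
    by positivity, 4 ^ (n₀ + 1), ?_⟩
  rintro m hm ⟨j, rfl⟩
  have hj : n₀ + 1 ≤ j := (Nat.pow_le_pow_iff_right (by norm_num)).1 hm
  obtain ⟨N, F, ⟨q, hq, hQ⟩, hR⟩ := h (2 * j) (by omega) j rfl
  have e1 : ((4 ^ j : ℕ) : ℝ) = 2 ^ (2 * j) := by rw [pow_mul]; push_cast; norm_num
  have e2 : Real.sqrt ((4 ^ j : ℕ) : ℝ) = 2 ^ j := by
    rw [e1, mul_comm, pow_mul, Real.sqrt_sq (by positivity)]
  have e3 : Real.log ((4 ^ j : ℕ) : ℝ) = (2 * j : ℕ) * Real.log 2 := by rw [e1, Real.log_pow]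
  have hj1 : (1 : ℝ) ≤ j := by exact_mod_cast (by omega : 1 ≤ j)
  have e4 : ((2 * j : ℕ) : ℝ) ≤ 2 * Real.log ((4 ^ j : ℕ) : ℝ) := by
    rw [e3]; push_cast; nlinarith [Real.log_two_gt_d9]
  have e5 : 1 ≤ Real.log ((4 ^ j : ℕ) : ℝ) := by
    rw [e3]; push_cast; nlinarith [Real.log_two_gt_d9]
  refine ⟨N, F, ⟨q, ?_, hQ⟩, fun r hr => le_trans ?_ (hR r hr)⟩
  · rw [Real.rpow_natCast, e2]
    calc (q : ℝ) ≤ 12 * 2 ^ j * ((2 * j : ℕ) : ℝ) ^ (7 * k + 13) := by exact_mod_cast hq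
      _ ≤ 12 * 2 ^ j * (2 * Real.log ((4 ^ j : ℕ) : ℝ)) ^ (7 * k + 13) := by gcongr
      _ = _ := by rw [mul_pow]; ring
  · refine (div_le_self (by positivity) (one_le_pow₀ e5)).trans (le_of_eq ?_)
    rw [e1, show (2 - 1 / (k : ℝ)) = 1 + (1 - 1 / (k : ℝ)) by ring,
      Real.rpow_add (by positivity), Real.rpow_one]

end Crest.Agent.S0554
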